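import Mathlib

/-!
# P215: the countable free groups embed in the free group of rank two
-/

noncomputable section

namespace Vale.Agent.P215.R2.H652

/-- the shift of the free group on the integers -/
def shift : MulAut (FreeGroup ℤ) := FreeGroup.freeGroupCongr (Equiv.addRight 1)

theorem shift_of (i : ℤ) : shift (FreeGroup.of i) = FreeGroup.of (i + 1) := by
  simp [shift]

theorem shift_inv_of (i : ℤ) : shift⁻¹ (FreeGroup.of i) = FreeGroup.of (i - 1) := by
  have h := shift_of (i - 1)
  rw [sub_add_cancel] at h
  rw [← h, MulAut.inv_apply_self]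

theorem shift_zpow_of (n i : ℤ) : (shift ^ n) (FreeGroup.of i) = FreeGroup.of (i + n) := by
  induction n with
  | zero => simp
  | succ k ih =>
    rw [add_comm, zpow_one_add, MulAut.mul_apply, ih, shift_of]
    congr 1
    ring
  | pred k ih =>
    rw [sub_eq_add_neg, add_comm, zpow_add, zpow_neg_one, MulAut.mul_apply, ih, shift_inv_of]
    congr 1
    ring

/-- the map which sends the letter `i` to `a ^ i * b * a ^ (-i)` -/
def toF2 : FreeGroup ℤ →* FreeGroup (Fin 2) :=
  FreeGroup.lift fun i => FreeGroup.of 0 ^ i * FreeGroup.of 1 * (FreeGroup.of 0 ^ i)⁻¹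

theorem toF2_injective : Function.Injective toF2 := by
  let φ : Multiplicative ℤ →* MulAut (FreeGroup ℤ) := zpowersHom _ shift
  let g : FreeGroup (Fin 2) →* FreeGroup ℤ ⋊[φ] Multiplicative ℤ :=
    FreeGroup.lift ![SemidirectProduct.inr (Multiplicative.ofAdd 1),
      SemidirectProduct.inl (FreeGroup.of 0)]
  have h : g.comp toF2 = SemidirectProduct.inl := by
    apply FreeGroup.ext_hom
    intro i
    have h1 : g (toF2 (FreeGroup.of i)) =
        SemidirectProduct.inr (Multiplicative.ofAdd i) * SemidirectProduct.inl (FreeGroup.of 0) *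
          SemidirectProduct.inr (Multiplicative.ofAdd i)⁻¹ := by
      have h2 : Multiplicative.ofAdd i = (Multiplicative.ofAdd (1 : ℤ)) ^ i := by
        rw [← ofAdd_zsmul]; simp
      simp only [toF2, FreeGroup.lift_apply_of, map_mul, map_zpow, map_inv, g, h2]
      simp
    rw [MonoidHom.comp_apply, h1, ← SemidirectProduct.inl_aut]
    congr 1
    show (shift ^ i) (FreeGroup.of 0) = FreeGroup.of i
    rw [shift_zpow_of, zero_add]
  have h3 : Function.Injective (g.comp toF2) := by
    rw [h]; exact SemidirectProduct.inl_injective
  exact Function.Injective.of_comp h3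

/-- **Every countable free group embeds in the free group of rank two.** -/
theorem exists_embedding (X : Type) [Countable X] :
    ∃ f : FreeGroup X →* FreeGroup (Fin 2), Function.Injective f := by
  obtain ⟨e, he⟩ := exists_injective_nat X
  refine ⟨toF2.comp (FreeGroup.map fun x => (e x : ℤ)), ?_⟩
  exact toF2_injective.comp (FreeGroup.map_injective (Nat.cast_injective.comp he))

end Vale.Agent.P215.R2.H652
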