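import Mathlib

/-!
# P215: sequences which are at most a negative power of the factorial
-/

namespace Vale.Agent.P215.R2.H652

/-- `f n` is at most `C * (n!) ^ (-c)` for some `C` and some `c > 0`. -/
def FactSmall (f : ℕ → ℝ) : Prop :=
  ∃ C c : ℝ, 0 < c ∧ ∀ n : ℕ, f n ≤ C * (n.factorial : ℝ) ^ (-c)

end Vale.Agent.P215.R2.H652
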