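import Vale.Agent.P215.R2.H652.Random
import Vale.Agent.P215.R2.H652.Small

/-!
# P215: a nontrivial word `u` is a relation between at most the proportion `C (n!)^(-c)` of all
tuples of permutations of `n` points

If `u` is a relation, each point whose walk avoids a given set gives a short closed simple walk
which avoids this set.  Lists of disjoint closed simple walks with given starting points are counted
by switching the last step of each of them.
-/

noncomputable section

namespace Vale.Agent.P215.R2.H652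

open Finset Filter Topology

/-- A command: start a walk at a point, a step to a new point, or a step to a given point. -/
inductive Com (X : Type) (n : ℕ) : Type
  | start : Fin n → Com X n
  | good : X × Bool → Com X n
  | close : X × Bool → Fin n → Com X n

section

variable {X : Type} {n : ℕ}

/-- the current point and the set of the visited points, the last command first -/
def cwk (σ : X → Equiv.Perm (Fin n)) (p₀ : Fin n) : List (Com X n) → Fin n × Finset (Fin n)
  | [] => (p₀, ∅)
  | .start q :: l => (q, insert q (cwk σ p₀ l).2)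
  | .good x :: l => (ev σ x (cwk σ p₀ l).1, insert (ev σ x (cwk σ p₀ l).1) (cwk σ p₀ l).2)
  | .close x _ :: l => (ev σ x (cwk σ p₀ l).1, insert (ev σ x (cwk σ p₀ l).1) (cwk σ p₀ l).2)

/-- the commands are obeyed -/
def Obey (σ : X → Equiv.Perm (Fin n)) (p₀ : Fin n) : List (Com X n) → Prop
  | [] => True
  | .start q :: l => Obey σ p₀ l ∧ q ∉ (cwk σ p₀ l).2
  | .good x :: l => Obey σ p₀ l ∧ ev σ x (cwk σ p₀ l).1 ∉ (cwk σ p₀ l).2
  | .close x q :: l => Obey σ p₀ l ∧ ev σ x (cwk σ p₀ l).1 = q

/-- the command before a step by the letter `x` is a start or a good step by a letter which is not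
the inverse letter -/
def CCompat (x : X × Bool) : List (Com X n) → Prop
  | [] => False
  | .start _ :: _ => True
  | .good x' :: _ => x.1 = x'.1 → x.2 = x'.2
  | .close _ _ :: _ => False

/-- valid lists of commands -/
def CValid : List (Com X n) → Prop
  | [] => True
  | .start _ :: l => CValid l
  | .good x :: l => CValid l ∧ CCompat x l
  | .close x _ :: l => CValid l ∧ CCompat x l

theorem card_cwk_le (σ : X → Equiv.Perm (Fin n)) (p₀ : Fin n) (l : List (Com X n)) :
    (cwk σ p₀ l).2.card ≤ l.length := by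
  induction l with
  | nil => simp [cwk]
  | cons c l ih =>
    rw [List.length_cons]
    cases c with
    | start q => exact (Finset.card_insert_le _ _).trans (by simpa [cwk] using ih)
    | good x => exact (Finset.card_insert_le _ _).trans (by simpa [cwk] using ih)
    | close x q => exact (Finset.card_insert_le _ _).trans (by simpa [cwk] using ih)

theorem cwk_mono (σ : X → Equiv.Perm (Fin n)) (p₀ : Fin n) {s l : List (Com X n)} (h : s <:+ l) :
    (cwk σ p₀ s).2 ⊆ (cwk σ p₀ l).2 := by
  induction l with
  | nil => rw [List.suffix_nil.1 h]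
  | cons c l ih =>
    rcases List.suffix_cons_iff.1 h with rfl | h
    · exact Finset.Subset.refl _
    · refine (ih h).trans ?_
      cases c with
      | start q => exact Finset.subset_insert _ _
      | good x => exact Finset.subset_insert _ _
      | close x q => exact Finset.subset_insert _ _

theorem cwk_mem (σ : X → Equiv.Perm (Fin n)) (p₀ : Fin n) {l : List (Com X n)} (h : l ≠ []) :
    (cwk σ p₀ l).1 ∈ (cwk σ p₀ l).2 := by
  cases l with
  | nil => exact absurd rfl h
  | cons c l =>
    cases c with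
    | start q => exact Finset.mem_insert_self _ _
    | good x => exact Finset.mem_insert_self _ _
    | close x q => exact Finset.mem_insert_self _ _

theorem obey_congr {σ τ : X → Equiv.Perm (Fin n)} {p₀ : Fin n} {l : List (Com X n)}
    (h : ∀ s, s <:+ l → cwk σ p₀ s = cwk τ p₀ s) : Obey σ p₀ l ↔ Obey τ p₀ l := by
  induction l with
  | nil => exact Iff.rfl
  | cons c l ih =>
    have h1 := ih fun s hs => h s (hs.trans (List.suffix_cons c l))
    have h2 := h l (List.suffix_cons _ l)
    cases c with
    | start q =>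
      show (Obey σ p₀ l ∧ q ∉ (cwk σ p₀ l).2) ↔ (Obey τ p₀ l ∧ q ∉ (cwk τ p₀ l).2)
      rw [h1, h2]
    | good x =>
      have h3 : ev σ x (cwk σ p₀ l).1 = ev τ x (cwk τ p₀ l).1 :=
        congrArg Prod.fst (h _ (List.suffix_refl _))
      show (Obey σ p₀ l ∧ ev σ x (cwk σ p₀ l).1 ∉ (cwk σ p₀ l).2) ↔
        (Obey τ p₀ l ∧ ev τ x (cwk τ p₀ l).1 ∉ (cwk τ p₀ l).2)
      rw [h1, h3, h2]
    | close x q =>
      have h3 : ev σ x (cwk σ p₀ l).1 = ev τ x (cwk τ p₀ l).1 :=
        congrArg Prod.fst (h _ (List.suffix_refl _))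
      show (Obey σ p₀ l ∧ ev σ x (cwk σ p₀ l).1 = q) ↔
        (Obey τ p₀ l ∧ ev τ x (cwk τ p₀ l).1 = q)
      rw [h1, h3]

/-- the current point is new -/
theorem cfresh {σ : X → Equiv.Perm (Fin n)} {p₀ : Fin n} {l : List (Com X n)} {x : X × Bool}
    (hok : Obey σ p₀ l) (hc : CCompat x l) : (cwk σ p₀ l).1 ∉ (cwk σ p₀ l.tail).2 := by
  cases l with
  | nil => exact hc.elim
  | cons c l =>
    cases c with
    | start q => exact hok.2
    | good x' => exact hok.2
    | close x' q => exact hc.elim

theorem CValid.suffix {l : List (Com X n)} (hv : CValid l) {s : List (Com X n)} (hs : s <:+ l) :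
    CValid s := by
  induction l with
  | nil => rw [List.suffix_nil.1 hs]; trivial
  | cons d l ih =>
    rcases List.suffix_cons_iff.1 hs with rfl | hs
    · exact hv
    · refine ih ?_ hs
      cases d with
      | start _ => exact hv
      | good _ => exact hv.1
      | close _ _ => exact hv.1

variable [DecidableEq X]

/-- the switched letter does not change a step of the history -/
theorem ev_switch_eq {σ : X → Equiv.Perm (Fin n)} {p₀ : Fin n} {l : List (Com X n)} {x : X × Bool}
    (hok : Obey σ p₀ l) (hc : CCompat x l) {y z : Fin n}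
    (hy : y = ev σ x (cwk σ p₀ l).1) (hz : z ∉ (cwk σ p₀ l).2) {s : List (Com X n)}
    (hsne : s ≠ []) {d : Com X n} (hs : (d :: s) <:+ l) {c : X × Bool}
    (hd : d = .good c ∨ ∃ q, d = .close c q) :
    ev (switch σ x y z) c (cwk σ p₀ s).1 = ev σ c (cwk σ p₀ s).1 := by
  have hfr := cfresh hok hc
  have hs' : s <:+ l := (List.suffix_cons d s).trans hs
  have hst : s <:+ l.tail := by
    cases l with
    | nil => simp at hs
    | cons e l =>
      rcases List.suffix_cons_iff.1 hs with h | h
      · rw [(List.cons.inj h).2]; exact List.suffix_refl _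
      · exact (List.suffix_cons d s).trans h
  have hd2 : (cwk σ p₀ (d :: s)).2 = insert (ev σ c (cwk σ p₀ s).1) (cwk σ p₀ s).2 := by
    rcases hd with rfl | ⟨q, rfl⟩ <;> rfl
  have hvt : (cwk σ p₀ s).1 ∈ (cwk σ p₀ l.tail).2 := cwk_mono σ p₀ hst (cwk_mem σ p₀ hsne)
  have hvl : (cwk σ p₀ s).1 ∈ (cwk σ p₀ l).2 := cwk_mono σ p₀ hs' (cwk_mem σ p₀ hsne)
  have hcl : ev σ c (cwk σ p₀ s).1 ∈ (cwk σ p₀ l).2 :=
    cwk_mono σ p₀ hs (by rw [hd2]; exact Finset.mem_insert_self _ _)
  obtain ⟨a, b1⟩ := x
  obtain ⟨a', b2⟩ := c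
  by_cases haa : a' = a
  · subst haa
    by_cases hbb : b2 = b1
    · subst hbb
      rw [ev_switch_self, Equiv.Perm.mul_apply]
      refine Equiv.swap_apply_of_ne_of_ne ?_ ?_
      · intro he
        rw [hy] at he
        exact hfr ((ev σ (a', b2)).injective he ▸ hvt)
      · intro he
        exact hz (he ▸ hcl)
    · have hb : b2 = !b1 := by cases b1 <;> cases b2 <;> simp_all
      subst hb
      rw [ev_switch_inv, Equiv.Perm.mul_apply]
      congr 1
      refine Equiv.swap_apply_of_ne_of_ne ?_ ?_
      · intro he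
        have h1 : ev σ (a', !b1) (cwk σ p₀ s).1 = (cwk σ p₀ l).1 := by
          rw [he, hy]
          cases b1 <;> simp [ev]
        cases l with
        | nil => exact hc
        | cons e l =>
          rcases List.suffix_cons_iff.1 hs with h | h
          · obtain ⟨rfl, rfl⟩ := List.cons.inj h
            rcases hd with rfl | ⟨q, rfl⟩
            · have h3 := hc rfl
              cases b1 <;> simp at h3
            · exact hc
          · apply hfr
            rw [← h1]
            exact cwk_mono σ p₀ h (by rw [hd2]; exact Finset.mem_insert_self _ _)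
      · intro he
        exact hz (he ▸ hvl)
  · rw [ev_switch_other _ _ _ _ _ _ _ haa]

/-- **Switching.** -/
theorem cwk_switch {σ : X → Equiv.Perm (Fin n)} {p₀ : Fin n} {l : List (Com X n)} {x : X × Bool}
    (hv : CValid l) (hok : Obey σ p₀ l) (hc : CCompat x l) {y z : Fin n}
    (hy : y = ev σ x (cwk σ p₀ l).1) (hz : z ∉ (cwk σ p₀ l).2) (s : List (Com X n)) :
    s <:+ l → cwk (switch σ x y z) p₀ s = cwk σ p₀ s := by
  induction s with
  | nil => intro _; rfl
  | cons c s ih =>
    intro hs
    have ih' := ih ((List.suffix_cons c s).trans hs)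
    have hvs := hv.suffix hs
    cases c with
    | start q => simp only [cwk, ih']
    | good c =>
      have hsne : s ≠ [] := by
        rintro rfl
        exact hvs.2
      have key := ev_switch_eq hok hc hy hz hsne hs (c := c) (Or.inl rfl)
      simp only [cwk, ih', key]
    | close c q =>
      have hsne : s ≠ [] := by
        rintro rfl
        exact hvs.2
      have key := ev_switch_eq hok hc hy hz hsne hs (c := c) (Or.inr ⟨q, rfl⟩)
      simp only [cwk, ih', key]

end

section count

variable {X : Type} [Fintype X] [DecidableEq X] {n : ℕ}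

open Classical in
/-- the number of the tuples which obey the commands and have a property -/
def cnum (p₀ : Fin n) (U : (X → Equiv.Perm (Fin n)) → Prop) (l : List (Com X n)) : ℕ :=
  (univ.filter fun σ : X → Equiv.Perm (Fin n) => U σ ∧ Obey σ p₀ l).card

theorem cnum_mono (p₀ : Fin n) {U U' : (X → Equiv.Perm (Fin n)) → Prop} {l l' : List (Com X n)}
    (h : ∀ σ, U σ → Obey σ p₀ l → U' σ ∧ Obey σ p₀ l') : cnum p₀ U l ≤ cnum p₀ U' l' := by
  classical
  refine Finset.card_le_card fun σ hσ => ?_
  simp only [Finset.mem_filter, Finset.mem_univ, true_and] at hσ ⊢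
  exact h σ hσ.1 hσ.2

/-- a step to a given point is rare -/
theorem cnum_close (p₀ : Fin n) (x : X × Bool) (q : Fin n) (l : List (Com X n)) (hv : CValid l)
    (hc : CCompat x l) {M : ℕ} (hM : l.length ≤ M) :
    cnum p₀ (fun _ => True) (.close x q :: l) * (n - M) ≤ cnum p₀ (fun _ => True) l := by
  classical
  let E : Finset (X → Equiv.Perm (Fin n)) := univ.filter fun σ => True ∧ Obey σ p₀ (.close x q :: l)
  let E' : Finset (X → Equiv.Perm (Fin n)) := univ.filter fun σ => True ∧ Obey σ p₀ l
  let A : Finset (Σ _ : X → Equiv.Perm (Fin n), Fin n) := E.sigma fun σ => ((cwk σ p₀ l).2)ᶜ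
  have e1 : cnum p₀ (fun _ => True) (.close x q :: l) = E.card := by
    unfold cnum; congr 1; ext σ; simp only [E, Finset.mem_filter]
  have e2 : cnum p₀ (fun _ => True) l = E'.card := by
    unfold cnum; congr 1; ext σ; simp only [E', Finset.mem_filter]
  rw [e1, e2]
  have hA : E.card * (n - M) ≤ A.card := by
    rw [Finset.card_sigma, ← smul_eq_mul]
    refine Finset.card_nsmul_le_sum _ _ _ fun σ _ => ?_
    rw [Finset.card_compl, Fintype.card_fin]
    have := card_cwk_le σ p₀ l
    omega
  refine hA.trans ?_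
  have mem_A : ∀ {σ : X → Equiv.Perm (Fin n)} {z : Fin n},
      (⟨σ, z⟩ : Σ _ : X → Equiv.Perm (Fin n), Fin n) ∈ (A : Set _) →
      Obey σ p₀ l ∧ q = ev σ x (cwk σ p₀ l).1 ∧ z ∉ (cwk σ p₀ l).2 := by
    intro σ z ht
    simp only [A, E, Finset.coe_sigma, Set.mem_sigma_iff, Finset.mem_coe, Finset.mem_filter,
      Finset.mem_univ, true_and, Finset.mem_compl] at ht
    exact ⟨ht.1.1, ht.1.2.symm, ht.2⟩
  refine Finset.card_le_card_of_injOn (fun t => switch t.1 x q t.2) ?_ ?_
  · rintro ⟨σ, z⟩ ht
    obtain ⟨h1, h2, h3⟩ := mem_A ht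
    have hw := cwk_switch hv h1 hc h2 h3
    simp only [E', Finset.mem_coe, Finset.mem_filter, Finset.mem_univ, true_and]
    exact (obey_congr hw).2 h1
  · have key : ∀ {σ : X → Equiv.Perm (Fin n)} {z : Fin n},
        (⟨σ, z⟩ : Σ _ : X → Equiv.Perm (Fin n), Fin n) ∈ (A : Set _) →
        ev (switch σ x q z) x (cwk (switch σ x q z) p₀ l).1 = z := by
      intro σ z ht
      obtain ⟨h1, h2, h3⟩ := mem_A ht
      rw [cwk_switch hv h1 hc h2 h3 l (List.suffix_refl l), ev_switch_self,
        Equiv.Perm.mul_apply, ← h2]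
      exact Equiv.swap_apply_left _ _
    rintro ⟨σ, z⟩ ht ⟨σ', z'⟩ ht' he
    simp only at he
    have hz : z = z' := by rw [← key ht, ← key ht', he]
    subst hz
    have := congrArg (fun τ => switch τ x q z) he
    simp only [switch_switch] at this
    subst this
    rfl

/-- good steps along a word -/
def cgoods (s : List (X × Bool)) : List (Com X n) := s.map fun x => .good x

omit [Fintype X] [DecidableEq X] in
theorem cvalid_goods {s : List (X × Bool)} (hs : FreeGroup.IsReduced s) {l : List (Com X n)}
    (hl : CValid l) (q : Fin n) : CValid (cgoods s ++ .start q :: l) := by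
  induction s with
  | nil => exact hl
  | cons x s ih =>
    refine ⟨ih (List.IsChain.tail hs), ?_⟩
    cases s with
    | nil => trivial
    | cons x' s => exact (List.isChain_cons_cons.1 hs).1

omit [Fintype X] [DecidableEq X] in
theorem ccompat_goods {x : X × Bool} {s : List (X × Bool)} (hs : FreeGroup.IsReduced (x :: s))
    (l : List (Com X n)) (q : Fin n) : CCompat x (cgoods s ++ .start q :: l) := by
  cases s with
  | nil => trivial
  | cons x' s => exact (List.isChain_cons_cons.1 hs).1

omit [Fintype X] [DecidableEq X] in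
theorem cwk_goods (σ : X → Equiv.Perm (Fin n)) (p₀ q : Fin n) (s : List (X × Bool))
    (l : List (Com X n)) :
    cwk σ p₀ (cgoods s ++ .start q :: l) = (walk σ q s, visited σ q s ∪ (cwk σ p₀ l).2) := by
  induction s with
  | nil =>
    show (q, insert q (cwk σ p₀ l).2) = (q, {q} ∪ (cwk σ p₀ l).2)
    rw [Finset.insert_eq]
  | cons x s ih =>
    show (ev σ x (cwk σ p₀ (cgoods s ++ .start q :: l)).1,
      insert (ev σ x (cwk σ p₀ (cgoods s ++ .start q :: l)).1)
        (cwk σ p₀ (cgoods s ++ .start q :: l)).2) = _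
    rw [ih, visited, Finset.insert_union]
    rfl

omit [Fintype X] [DecidableEq X] in
theorem obey_goods {σ : X → Equiv.Perm (Fin n)} {p₀ q : Fin n} {l : List (Com X n)}
    (hok : Obey σ p₀ l) (s : List (X × Bool)) (hs : Simple σ q s)
    (hav : ∀ r, r <:+ s → walk σ q r ∉ (cwk σ p₀ l).2) :
    Obey σ p₀ (cgoods s ++ .start q :: l) := by
  induction s with
  | nil => exact ⟨hok, hav [] (List.suffix_refl _)⟩
  | cons x s ih =>
    refine ⟨ih hs.1 fun r hr => hav r (hr.trans (List.suffix_cons x s)), ?_⟩
    show ev σ x (cwk σ p₀ (cgoods s ++ .start q :: l)).1 ∉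
      (cwk σ p₀ (cgoods s ++ .start q :: l)).2
    rw [cwk_goods]
    intro h
    rcases Finset.mem_union.1 h with h | h
    · exact hs.2 h
    · exact hav (x :: s) (List.suffix_refl _) h

omit [Fintype X] [DecidableEq X] in
theorem walk_append (σ : X → Equiv.Perm (Fin n)) (p : Fin n) (r s : List (X × Bool)) :
    walk σ p (r ++ s) = walk σ (walk σ p s) r := by
  induction r with
  | nil => rfl
  | cons x r ih => rw [List.cons_append, walk, walk, ih]

omit [Fintype X] [DecidableEq X] in
theorem mem_visited (σ : X → Equiv.Perm (Fin n)) (p : Fin n) (l : List (X × Bool)) {y : Fin n}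
    (h : y ∈ visited σ p l) : ∃ s, s <:+ l ∧ y = walk σ p s := by
  induction l with
  | nil =>
    refine ⟨[], List.suffix_refl _, ?_⟩
    simpa [visited, walk] using h
  | cons x l ih =>
    rcases Finset.mem_insert.1 h with h | h
    · exact ⟨x :: l, List.suffix_refl _, h⟩
    · obtain ⟨s, hs, hy⟩ := ih h
      exact ⟨s, hs.trans (List.suffix_cons x l), hy⟩

omit [Fintype X] [DecidableEq X] in
theorem Simple.of_append {σ : X → Equiv.Perm (Fin n)} {p : Fin n} (s : List (X × Bool)) :
    ∀ r : List (X × Bool), Simple σ p (r ++ s) → Simple σ (walk σ p s) r := by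
  intro r
  induction r with
  | nil => intro _; trivial
  | cons x r ih =>
    intro h
    refine ⟨ih h.1, fun hm => h.2 ?_⟩
    obtain ⟨t, ht, he⟩ := mem_visited _ _ _ hm
    have h1 : walk σ p (x :: r ++ s) = walk σ p (t ++ s) := by
      rw [walk_append, walk_append, he]
    rw [List.cons_append] at h1
    show walk σ p (x :: (r ++ s)) ∈ visited σ p (r ++ s)
    rw [h1]
    refine walk_mem_visited σ p ?_
    obtain ⟨t', rfl⟩ := ht
    exact ⟨t', by rw [List.append_assoc]⟩

omit [Fintype X] [DecidableEq X] in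
/-- the walk along a word is simple or it has a first step to a visited point -/
theorem exists_first (σ : X → Equiv.Perm (Fin n)) (p : Fin n) (L : List (X × Bool)) :
    Simple σ p L ∨ ∃ x r s, (x :: (r ++ s)) <:+ L ∧ Simple σ p (r ++ s) ∧
      walk σ p (x :: (r ++ s)) = walk σ p s := by
  induction L with
  | nil => exact Or.inl trivial
  | cons x L ih =>
    rcases ih with h | ⟨y, r, s, h1, h2, h3⟩
    · by_cases hm : walk σ p (x :: L) ∈ visited σ p L
      · right
        obtain ⟨s, ⟨r, rfl⟩, he⟩ := mem_visited _ _ _ hm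
        exact ⟨x, r, s, List.suffix_refl _, h, he⟩
      · exact Or.inl ⟨h, hm⟩
    · exact Or.inr ⟨y, r, s, h1.trans (List.suffix_cons x L), h2, h3⟩

/-- the block of commands for the closed walk from `q` along the subword of `L` of length `b + 1`
which begins at `a` -/
def cblk (L : List (X × Bool)) (q : Fin n) (a b : ℕ) (l : List (Com X n)) : List (Com X n) :=
  match (L.drop a).take (b + 1) with
  | [] => l
  | x :: r => .close x q :: (cgoods r ++ .start q :: l)

omit [Fintype X] [DecidableEq X] in
/-- If the word is a relation, each point whose walk avoids the visited points gives a block. -/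
theorem exists_block {σ : X → Equiv.Perm (Fin n)} {p₀ : Fin n} {l : List (Com X n)}
    (hok : Obey σ p₀ l) {L : List (X × Bool)} (hne : L ≠ [])
    (hU : FreeGroup.lift σ (FreeGroup.mk L) = 1) {p : Fin n}
    (hav : ∀ r, r <:+ L → walk σ p r ∉ (cwk σ p₀ l).2) :
    ∃ q a b, a < L.length ∧ b < L.length ∧ Obey σ p₀ (cblk L q a b l) ∧
      q = walk σ p (L.drop (a + b + 1)) := by
  rcases exists_first σ p L with h | ⟨x, r, s, ⟨t, ht⟩, h2, h3⟩
  · exfalso
    have h4 := walk_eq σ p L
    rw [hU] at h4
    exact hne (h.eq_of_walk_eq List.nil_suffix h4).symm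
  · have hL : L = t ++ ((x :: r) ++ s) := by rw [← ht]; rfl
    have e1 : L.drop t.length = (x :: r) ++ s := by rw [hL, List.drop_left]
    have e2 : (L.drop t.length).take (r.length + 1) = x :: r := by
      rw [e1]
      exact List.take_left' (by simp)
    have e3 : L.drop (t.length + r.length + 1) = s := by
      rw [add_assoc, ← List.drop_drop, e1]
      exact List.drop_left' (by simp)
    have e4 : L.length = t.length + (r.length + 1 + s.length) := by
      rw [hL]
      simp only [List.length_append, List.length_cons]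
    refine ⟨walk σ p s, t.length, r.length, by omega, by omega, ?_, by rw [e3]⟩
    unfold cblk
    rw [e2]
    have hq : walk σ (walk σ p s) r = walk σ p (r ++ s) := (walk_append σ p r s).symm
    refine ⟨obey_goods hok r (h2.of_append s r) fun r' hr' => ?_, ?_⟩
    · rw [← walk_append]
      refine hav _ ?_
      obtain ⟨r'', rfl⟩ := hr'
      exact ⟨t ++ (x :: r''), by rw [hL]; simp⟩
    · rw [cwk_goods]
      show ev σ x (walk σ (walk σ p s) r) = _
      rw [hq]
      exact h3

/-- **The count.** -/
theorem cnum_le (p₀ : Fin n) {L : List (X × Bool)} (hL : FreeGroup.IsReduced L) (hne : L ≠ [])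
    {M : ℕ} (j : ℕ) : ∀ l : List (Com X n), CValid l → l.length + j * (L.length + 1) ≤ M →
      cnum p₀ (fun σ => FreeGroup.lift σ (FreeGroup.mk L) = 1) l *
          ((n - (L.length + 1) * M) * (n - M)) ^ j ≤
        cnum p₀ (fun _ => True) l * (L.length * L.length * n) ^ j := by
  classical
  induction j with
  | zero =>
    intro l _ _
    simp only [pow_zero, mul_one]
    exact cnum_mono p₀ fun σ _ h => ⟨trivial, h⟩
  | succ j ih =>
    intro l hl hlen
    obtain ⟨U, hU⟩ : ∃ U : (X → Equiv.Perm (Fin n)) → Prop,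
      U = fun σ => FreeGroup.lift σ (FreeGroup.mk L) = 1 := ⟨_, rfl⟩
    rw [← hU] at ih ⊢
    obtain ⟨K, hK⟩ : ∃ K, K = L.length := ⟨_, rfl⟩
    rw [← hK] at hlen ih ⊢
    have hlen' : l.length + (K + 1) + j * (K + 1) ≤ M := by
      have : (j + 1) * (K + 1) = (K + 1) + j * (K + 1) := by ring
      omega
    let T : Finset (Fin n × ℕ × ℕ) := univ ×ˢ (range K ×ˢ range K)
    -- many blocks
    have hmany : cnum p₀ U l * (n - (K + 1) * M) ≤
        ∑ t ∈ T, cnum p₀ U (cblk L t.1 t.2.1 t.2.2 l) := by
      have h1 : ∑ t ∈ T, cnum p₀ U (cblk L t.1 t.2.1 t.2.2 l) =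
          ∑ σ : X → Equiv.Perm (Fin n),
            (T.filter fun t => U σ ∧ Obey σ p₀ (cblk L t.1 t.2.1 t.2.2 l)).card := by
        unfold cnum
        simp_rw [Finset.card_filter]
        rw [Finset.sum_comm]
      have h2 : cnum p₀ U l * (n - (K + 1) * M) ≤
          ∑ σ ∈ univ.filter (fun σ : X → Equiv.Perm (Fin n) => U σ ∧ Obey σ p₀ l),
            (T.filter fun t => U σ ∧ Obey σ p₀ (cblk L t.1 t.2.1 t.2.2 l)).card := by
        have e1 : cnum p₀ U l =
            (univ.filter fun σ : X → Equiv.Perm (Fin n) => U σ ∧ Obey σ p₀ l).card := by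
          unfold cnum; congr 1
        rw [e1, ← smul_eq_mul]
        refine Finset.card_nsmul_le_sum _ _ _ fun σ hσ => ?_
        simp only [Finset.mem_filter, Finset.mem_univ, true_and] at hσ
        obtain ⟨hσU, hσl⟩ := hσ
        -- the points whose walk avoids the visited points
        let S := (cwk σ p₀ l).2
        let B : Finset (Fin n) := (range (K + 1)).biUnion fun i =>
          univ.filter fun p => walk σ p (L.drop i) ∈ S
        have hB : B.card ≤ (K + 1) * M := by
          refine Finset.card_biUnion_le.trans ?_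
          refine (Finset.sum_le_card_nsmul _ _ M fun i _ => ?_).trans (by simp)
          have hinj : (univ.filter fun p => walk σ p (L.drop i) ∈ S).card ≤ S.card := by
            refine Finset.card_le_card_of_injOn (fun p => walk σ p (L.drop i)) ?_ ?_
            · intro p hp
              simpa using hp
            · intro p _ p' _ h
              simp only [← walk_eq] at h
              exact (FreeGroup.lift σ (FreeGroup.mk (L.drop i))).injective h
          exact (hinj.trans (card_cwk_le σ p₀ l)).trans (by omega)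
        have hav : ∀ p ∈ Bᶜ, ∀ r, r <:+ L → walk σ p r ∉ (cwk σ p₀ l).2 := by
          intro p hp r hr hm
          rw [Finset.mem_compl] at hp
          apply hp
          refine Finset.mem_biUnion.2 ⟨L.length - r.length, Finset.mem_range.2 (by omega), ?_⟩
          rw [← List.suffix_iff_eq_drop.1 hr]
          simpa using hm
        have hex : ∀ p ∈ Bᶜ, ∃ t : Fin n × ℕ × ℕ,
            t ∈ (T.filter fun t => U σ ∧ Obey σ p₀ (cblk L t.1 t.2.1 t.2.2 l)) ∧
            t.1 = walk σ p (L.drop (t.2.1 + t.2.2 + 1)) := by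
          intro p hp
          obtain ⟨q, a, b, ha, hb, hob, hq⟩ :=
            exists_block hσl hne (by rw [hU] at hσU; exact hσU) (hav p hp)
          refine ⟨(q, a, b), ?_, hq⟩
          simp only [T, Finset.mem_filter, Finset.mem_product, Finset.mem_univ, Finset.mem_range,
            true_and]
          exact ⟨⟨by omega, by omega⟩, hσU, hob⟩
        choose! f hf1 hf2 using hex
        have h3 : (Bᶜ).card ≤
            (T.filter fun t => U σ ∧ Obey σ p₀ (cblk L t.1 t.2.1 t.2.2 l)).card := by
          refine Finset.card_le_card_of_injOn f (fun p hp => hf1 p hp) ?_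
          intro p hp p' hp' h
          have h4 := hf2 p hp
          have h5 := hf2 p' hp'
          rw [h] at h4
          rw [h4] at h5
          simp only [← walk_eq] at h5
          exact (FreeGroup.lift σ _).injective h5
        rw [Finset.card_compl, Fintype.card_fin] at h3
        omega
      rw [h1]
      exact h2.trans (Finset.sum_le_sum_of_subset (Finset.filter_subset _ _))
    have hblk : ∀ t ∈ T, cnum p₀ U (cblk L t.1 t.2.1 t.2.2 l) *
        (((n - (K + 1) * M) * (n - M)) ^ j * (n - M)) ≤
        cnum p₀ (fun _ => True) l * (K * K * n) ^ j := by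
      rintro ⟨q, a, b⟩ ht
      simp only [T, Finset.mem_product, Finset.mem_univ, Finset.mem_range, true_and] at ht
      obtain ⟨ha, hb⟩ := ht
      have hsub : ∃ x r, (L.drop a).take (b + 1) = x :: r := by
        have : (L.drop a).take (b + 1) ≠ [] := by
          intro h
          have := congrArg List.length h
          rw [List.length_take, List.length_drop, List.length_nil] at this
          omega
        exact List.exists_cons_of_ne_nil this
      obtain ⟨x, r, hxr⟩ := hsub
      have hr : FreeGroup.IsReduced (x :: r) := by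
        rw [← hxr]
        exact List.IsChain.take (List.IsChain.drop hL a) _
      have hlr : r.length + 1 ≤ K := by
        have := congrArg List.length hxr
        rw [List.length_take, List.length_drop, List.length_cons] at this
        omega
      have hcb : cblk L q a b l = .close x q :: (cgoods r ++ .start q :: l) := by
        unfold cblk; rw [hxr]
      have hv1 : CValid (cgoods r ++ Com.start q :: l) :=
        cvalid_goods (List.IsChain.tail hr) hl q
      have hv2 : CValid (.close x q :: (cgoods r ++ .start q :: l)) := ⟨hv1, ccompat_goods hr l q⟩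
      have hlen1 : (cgoods r ++ Com.start q :: l).length ≤ l.length + K := by
        simp only [List.length_append, List.length_cons, cgoods, List.length_map]
        omega
      have h1 := ih (.close x q :: (cgoods r ++ .start q :: l)) hv2 (by
        rw [List.length_cons]; omega)
      have h2 := cnum_close p₀ x q (cgoods r ++ .start q :: l) hv1 (ccompat_goods hr l q)
        (M := M) (by omega)
      have h3 : cnum p₀ (fun _ => True) (cgoods r ++ .start q :: l) ≤
          cnum p₀ (fun _ => True) l := by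
        refine cnum_mono p₀ fun σ _ h => ⟨trivial, ?_⟩
        clear h1 h2 hv2 hlen1 hv1 hr hcb hxr hlr
        induction r with
        | nil => exact h.1
        | cons x r ihs => exact ihs h.1
      rw [hcb]
      calc _ = cnum p₀ U (.close x q :: (cgoods r ++ .start q :: l)) *
            ((n - (K + 1) * M) * (n - M)) ^ j * (n - M) := by ring
        _ ≤ cnum p₀ (fun _ => True) (.close x q :: (cgoods r ++ .start q :: l)) *
            (K * K * n) ^ j * (n - M) := Nat.mul_le_mul_right _ h1
        _ = cnum p₀ (fun _ => True) (.close x q :: (cgoods r ++ .start q :: l)) *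
            (n - M) * (K * K * n) ^ j := by ring
        _ ≤ cnum p₀ (fun _ => True) (cgoods r ++ .start q :: l) * (K * K * n) ^ j :=
            Nat.mul_le_mul_right _ h2
        _ ≤ _ := Nat.mul_le_mul_right _ h3
    calc cnum p₀ U l * ((n - (K + 1) * M) * (n - M)) ^ (j + 1)
        = cnum p₀ U l * (n - (K + 1) * M) * (((n - (K + 1) * M) * (n - M)) ^ j * (n - M)) := by
          ring
      _ ≤ (∑ t ∈ T, cnum p₀ U (cblk L t.1 t.2.1 t.2.2 l)) *
            (((n - (K + 1) * M) * (n - M)) ^ j * (n - M)) := Nat.mul_le_mul_right _ hmany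
      _ = ∑ t ∈ T, cnum p₀ U (cblk L t.1 t.2.1 t.2.2 l) *
            (((n - (K + 1) * M) * (n - M)) ^ j * (n - M)) := Finset.sum_mul _ _ _
      _ ≤ ∑ _t ∈ T, cnum p₀ (fun _ => True) l * (K * K * n) ^ j := Finset.sum_le_sum hblk
      _ = _ := by
          rw [Finset.sum_const, smul_eq_mul, Finset.card_product, Finset.card_product,
            Finset.card_univ, Finset.card_range, Fintype.card_fin]
          ring

/-- **A nontrivial word of length `K` is a relation between at most the proportion
`(4 K² / n) ^ j`, `j = n / (2 (K + 1)²)`, of all tuples of permutations of `n` points.** -/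
theorem card_relation_fact (u : FreeGroup X) (hu : u ≠ 1) (hn : 0 < n) :
    Nat.card {σ : X → Equiv.Perm (Fin n) // FreeGroup.lift σ u = 1} *
      n ^ (n / (2 * (u.toWord.length + 1) ^ 2)) ≤
      Nat.card (X → Equiv.Perm (Fin n)) *
        (4 * u.toWord.length ^ 2) ^ (n / (2 * (u.toWord.length + 1) ^ 2)) := by
  classical
  have hne : u.toWord ≠ [] := fun h => hu (FreeGroup.toWord_eq_nil_iff.1 h)
  obtain ⟨K, hK⟩ : ∃ K, K = u.toWord.length := ⟨_, rfl⟩
  rw [← hK]
  obtain ⟨j, hj⟩ : ∃ j, j = n / (2 * (K + 1) ^ 2) := ⟨_, rfl⟩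
  rw [← hj]
  have h1 : j * (2 * (K + 1) ^ 2) ≤ n := by rw [hj]; exact Nat.div_mul_le_self _ _
  have h2 : 2 * ((K + 1) * (j * (K + 1))) ≤ n := by
    calc _ = j * (2 * (K + 1) ^ 2) := by ring
      _ ≤ n := h1
  have h3 : j * (K + 1) ≤ (K + 1) * (j * (K + 1)) := Nat.le_mul_of_pos_left _ (Nat.succ_pos K)
  have h6 := cnum_le (X := X) (n := n) ⟨0, hn⟩ FreeGroup.isReduced_toWord hne
    (M := j * (K + 1)) j [] trivial (by rw [← hK]; simp)
  have e1 : cnum (⟨0, hn⟩ : Fin n) (fun σ => FreeGroup.lift σ (FreeGroup.mk u.toWord) = 1) [] =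
      Nat.card {σ : X → Equiv.Perm (Fin n) // FreeGroup.lift σ u = 1} := by
    rw [Nat.card_eq_fintype_card, Fintype.card_subtype]
    unfold cnum
    congr 1
    ext σ
    simp [Obey, FreeGroup.mk_toWord]
  have e2 : cnum (⟨0, hn⟩ : Fin n) (fun _ : X → Equiv.Perm (Fin n) => True) [] =
      Nat.card (X → Equiv.Perm (Fin n)) := by
    rw [Nat.card_eq_fintype_card]
    unfold cnum
    rw [← Finset.card_univ]
    congr 1
    ext σ
    simp [Obey]
  rw [e1, e2, ← hK] at h6
  set A : ℕ := Nat.card {σ : X → Equiv.Perm (Fin n) // FreeGroup.lift σ u = 1}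
  set N : ℕ := Nat.card (X → Equiv.Perm (Fin n))
  have h7 : n * n ≤ 4 * ((n - (K + 1) * (j * (K + 1))) * (n - j * (K + 1))) := by
    have a1 : n ≤ 2 * (n - (K + 1) * (j * (K + 1))) := by omega
    have a2 : n ≤ 2 * (n - j * (K + 1)) := by omega
    calc n * n ≤ (2 * (n - (K + 1) * (j * (K + 1)))) * (2 * (n - j * (K + 1))) :=
          Nat.mul_le_mul a1 a2
      _ = _ := by ring
  have h8 : 0 < n ^ j := pow_pos hn j
  refine Nat.le_of_mul_le_mul_right ?_ h8
  calc A * n ^ j * n ^ j = A * (n * n) ^ j := by rw [mul_pow, mul_assoc]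
    _ ≤ A * (4 * ((n - (K + 1) * (j * (K + 1))) * (n - j * (K + 1)))) ^ j :=
        Nat.mul_le_mul_left _ (Nat.pow_le_pow_left h7 j)
    _ = A * ((n - (K + 1) * (j * (K + 1))) * (n - j * (K + 1))) ^ j * 4 ^ j := by
        rw [mul_pow 4 ((n - (K + 1) * (j * (K + 1))) * (n - j * (K + 1))) j]; ring
    _ ≤ N * (K * K * n) ^ j * 4 ^ j := Nat.mul_le_mul_right _ h6
    _ = N * (4 * K ^ 2) ^ j * n ^ j := by
        rw [mul_pow (K * K) n j, mul_pow 4 (K ^ 2) j, ← pow_two]; ring

end count

theorem one_le_fact (n : ℕ) : (1 : ℝ) ≤ n.factorial := by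
  exact_mod_cast Nat.one_le_iff_ne_zero.2 n.factorial_ne_zero

theorem FactSmall.mono {f g : ℕ → ℝ} (hg : FactSmall g) (h : ∀ n, f n ≤ g n) : FactSmall f := by
  obtain ⟨C, c, hc, hC⟩ := hg
  exact ⟨C, c, hc, fun n => (h n).trans (hC n)⟩

theorem FactSmall.add {f g : ℕ → ℝ} (hf : FactSmall f) (hg : FactSmall g) :
    FactSmall fun n => f n + g n := by
  obtain ⟨C, c, hc, hC⟩ := hf
  obtain ⟨C', c', hc', hC'⟩ := hg
  refine ⟨|C| + |C'|, min c c', lt_min hc hc', fun n => ?_⟩
  have hF := one_le_fact n
  have h1 : C * (n.factorial : ℝ) ^ (-c) ≤ |C| * (n.factorial : ℝ) ^ (-min c c') :=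
    mul_le_mul (le_abs_self C)
      (Real.rpow_le_rpow_of_exponent_le hF (neg_le_neg (min_le_left _ _))) (by positivity)
      (abs_nonneg C)
  have h2 : C' * (n.factorial : ℝ) ^ (-c') ≤ |C'| * (n.factorial : ℝ) ^ (-min c c') :=
    mul_le_mul (le_abs_self C')
      (Real.rpow_le_rpow_of_exponent_le hF (neg_le_neg (min_le_right _ _))) (by positivity)
      (abs_nonneg C')
  rw [add_mul]
  exact add_le_add ((hC n).trans h1) ((hC' n).trans h2)

theorem factSmall_zero : FactSmall fun _ => 0 :=
  ⟨0, 1, one_pos, fun n => by simp⟩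

theorem FactSmall.sum {ι : Type} (s : Finset ι) {f : ι → ℕ → ℝ} (h : ∀ i ∈ s, FactSmall (f i)) :
    FactSmall fun n => ∑ i ∈ s, f i n := by
  classical
  induction s using Finset.induction_on with
  | empty => simpa using factSmall_zero
  | insert i s hi ih =>
    simp only [Finset.sum_insert hi]
    exact (h i (Finset.mem_insert_self _ _)).add
      (ih fun k hk => h k (Finset.mem_insert_of_mem hk))

/-- the constant sequence is not small -/
theorem not_factSmall_one : ¬ FactSmall fun _ => 1 := by
  rintro ⟨C, c, hc, hC⟩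
  have h0 : Tendsto (fun n : ℕ => (n.factorial : ℝ)) atTop atTop :=
    tendsto_atTop_mono (fun n => by exact_mod_cast Nat.self_le_factorial n)
      tendsto_natCast_atTop_atTop
  have h1 : Tendsto (fun n : ℕ => C * (n.factorial : ℝ) ^ (-c)) atTop (𝓝 (C * 0)) :=
    ((tendsto_rpow_neg_atTop hc).comp h0).const_mul C
  rw [mul_zero] at h1
  have h2 := ge_of_tendsto' h1 hC
  linarith

/-- A nontrivial word is a relation between at most the proportion `C * (n!) ^ (-c)` of the tuples
of permutations of `n` points. -/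
theorem factSmall_relation {X : Type} [Finite X] (u : FreeGroup X) (hu : u ≠ 1) :
    FactSmall fun n => tupleProportion X n fun σ => FreeGroup.lift σ u = 1 := by
  classical
  have := Fintype.ofFinite X
  have hne : u.toWord ≠ [] := fun h => hu (FreeGroup.toWord_eq_nil_iff.1 h)
  have hK1 : 1 ≤ u.toWord.length := List.length_pos_iff.2 hne
  obtain ⟨m, hm⟩ : ∃ m, m = 2 * (u.toWord.length + 1) ^ 2 := ⟨_, rfl⟩
  obtain ⟨D, hD⟩ : ∃ D, D = 4 * u.toWord.length ^ 2 := ⟨_, rfl⟩
  have hm1 : 1 ≤ m := by rw [hm]; exact Nat.succ_le_of_lt (by positivity)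
  have hD1 : 1 ≤ D := by rw [hD]; exact Nat.succ_le_of_lt (by positivity)
  have hm0 : (0 : ℝ) < m := by exact_mod_cast hm1
  have hD0 : (1 : ℝ) ≤ D := by exact_mod_cast hD1
  obtain ⟨c, hc⟩ : ∃ c : ℝ, c = 1 / (2 * m) := ⟨_, rfl⟩
  have hc0 : 0 < c := by rw [hc]; positivity
  have hcm : (m : ℝ)⁻¹ = 2 * c := by rw [hc]; field_simp
  obtain ⟨B, hB⟩ := (FloorSemiring.tendsto_pow_div_factorial_atTop
    ((2 * (D : ℝ)) ^ (2 * m))).bddAbove_range
  have hB' : ∀ n : ℕ, ((2 * (D : ℝ)) ^ (2 * m)) ^ n ≤ max B 1 * n.factorial := by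
    intro n
    have h1 : ((2 * (D : ℝ)) ^ (2 * m)) ^ n / n.factorial ≤ B := hB ⟨n, rfl⟩
    have h2 := h1.trans (le_max_left B 1)
    rwa [div_le_iff₀ (by positivity)] at h2
  refine ⟨(max B 1) ^ c, c, hc0, fun n => ?_⟩
  have hB1 : (1 : ℝ) ≤ max B 1 := le_max_right _ _
  have hF := one_le_fact n
  have hF0 : (0 : ℝ) < n.factorial := lt_of_lt_of_le one_pos hF
  have hP1 : tupleProportion X n (fun σ => FreeGroup.lift σ u = 1) ≤ 1 := by
    have := proportion_mono (X := X) (n := n) (P := fun σ => FreeGroup.lift σ u = 1)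
      (Q := fun _ => True) fun _ _ => trivial
    rwa [proportion_eq_one (P := fun _ => True) fun _ => trivial] at this
  have hP0 := proportion_nonneg X n (fun σ => FreeGroup.lift σ u = 1)
  rcases Nat.eq_zero_or_pos n with rfl | hn
  · simp only [Nat.factorial_zero, Nat.cast_one, Real.one_rpow, mul_one]
    exact hP1.trans (Real.one_le_rpow hB1 hc0.le)
  obtain ⟨j, hj⟩ : ∃ j, j = n / m := ⟨_, rfl⟩
  have h := card_relation_fact (n := n) u hu hn
  rw [← hm, ← hD, ← hj] at h
  have hn0 : (0 : ℝ) < n := by exact_mod_cast hn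
  have hN : (0 : ℝ) < Nat.card (X → Equiv.Perm (Fin n)) := by exact_mod_cast Nat.card_pos
  have h3 : (Nat.card {σ : X → Equiv.Perm (Fin n) // FreeGroup.lift σ u = 1} : ℝ) *
      (n : ℝ) ^ j ≤ Nat.card (X → Equiv.Perm (Fin n)) * (D : ℝ) ^ j := by exact_mod_cast h
  have h4 : tupleProportion X n (fun σ => FreeGroup.lift σ u = 1) * (n : ℝ) ^ j ≤ (D : ℝ) ^ j := by
    unfold tupleProportion
    rw [div_mul_eq_mul_div, div_le_iff₀ hN]
    linarith
  set P : ℝ := tupleProportion X n (fun σ => FreeGroup.lift σ u = 1)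
  have hjn : j ≤ n := by rw [hj]; exact Nat.div_le_self _ _
  have h5 : (D : ℝ) ^ j ≤ (D : ℝ) ^ n := pow_le_pow_right₀ hD0 hjn
  -- the factorial is at most `(n ^ (j + 1)) ^ m`
  have h6 : n ≤ (j + 1) * m := by
    have := Nat.div_add_mod n m
    have h7 := Nat.mod_lt n (Nat.lt_of_lt_of_le Nat.zero_lt_one hm1)
    rw [← hj] at this
    calc n = m * j + n % m := this.symm
      _ ≤ m * j + m := by omega
      _ = (j + 1) * m := by ring
  have h7 : (n.factorial : ℝ) ≤ ((n : ℝ) ^ (j + 1)) ^ m := by
    rw [← pow_mul]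
    have : n.factorial ≤ n ^ ((j + 1) * m) :=
      (Nat.factorial_le_pow n).trans (Nat.pow_le_pow_right hn h6)
    exact_mod_cast this
  have h8 : (n.factorial : ℝ) ^ (2 * c) ≤ (n : ℝ) ^ (j + 1) := by
    have h9 := Real.rpow_le_rpow hF0.le h7 (by positivity : (0 : ℝ) ≤ 2 * c)
    rwa [← hcm, Real.pow_rpow_inv_natCast (by positivity) (by omega), hcm] at h9
  have h9 : P * (n.factorial : ℝ) ^ (2 * c) ≤ (2 * (D : ℝ)) ^ n := by
    have a1 : (n : ℝ) ≤ 2 ^ n := by exact_mod_cast Nat.lt_two_pow_self.le
    calc P * (n.factorial : ℝ) ^ (2 * c) ≤ P * (n : ℝ) ^ (j + 1) := by gcongr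
      _ = P * (n : ℝ) ^ j * n := by ring
      _ ≤ (D : ℝ) ^ n * 2 ^ n := by
          refine mul_le_mul (h4.trans h5) a1 hn0.le (by positivity)
      _ = (2 * (D : ℝ)) ^ n := by rw [mul_pow]; ring
  have h10 : (2 * (D : ℝ)) ^ n ≤ (max B 1) ^ c * (n.factorial : ℝ) ^ c := by
    have b1 := Real.rpow_le_rpow (by positivity) (hB' n) hc0.le
    rw [Real.mul_rpow (by positivity) hF0.le] at b1
    refine le_trans (le_of_eq ?_) b1
    rw [← pow_mul, mul_comm (2 * m) n, pow_mul, ← Real.rpow_natCast ((2 * (D : ℝ)) ^ n) (2 * m),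
      ← Real.rpow_mul (by positivity), hc]
    push_cast
    rw [mul_one_div_cancel (by positivity), Real.rpow_one]
  have h11 : P * (n.factorial : ℝ) ^ (2 * c) ≤ (max B 1) ^ c * (n.factorial : ℝ) ^ c :=
    h9.trans h10
  have h12 : (n.factorial : ℝ) ^ (2 * c) = (n.factorial : ℝ) ^ c * (n.factorial : ℝ) ^ c := by
    rw [← Real.rpow_add hF0]; ring_nf
  have h13 : (0 : ℝ) < (n.factorial : ℝ) ^ c := Real.rpow_pos_of_pos hF0 c
  rw [h12, ← mul_assoc] at h11
  have h14 := le_of_mul_le_mul_right h11 h13
  rw [Real.rpow_neg hF0.le, ← div_eq_mul_inv, le_div_iff₀ h13]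
  exact h14

end Vale.Agent.P215.R2.H652
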