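import Mathlib

/-!
# P215: classes of groups without a common law discriminate the free groups
-/

noncomputable section

namespace Vale.Agent.P215.R2.H652

/-- A class `𝒢` of groups has **no law**: for every nontrivial word `w` in countably many variables
some homomorphism from the free group to a member of `𝒢` does not kill `w`. -/
def NoLaw (𝒢 : (Γ : Type) → [Group Γ] → Prop) : Prop :=
  ∀ w : FreeGroup ℕ, w ≠ 1 →
    ∃ (Γ : Type) (_ : Group Γ), 𝒢 Γ ∧ ∃ α : FreeGroup ℕ →* Γ, α w ≠ 1

/-- The class `𝒢` **discriminates** the group `Δ`: every finite set of nontrivial elements of `Δ`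
stays nontrivial under one homomorphism to a member of `𝒢`. -/
def Discriminates (𝒢 : (Γ : Type) → [Group Γ] → Prop) (Δ : Type) [Group Δ] : Prop :=
  ∀ S : Set Δ, S.Finite → (∀ u ∈ S, u ≠ 1) →
    ∃ (Γ : Type) (_ : Group Γ), 𝒢 Γ ∧ ∃ α : Δ →* Γ, ∀ u ∈ S, α u ≠ 1

/-- If `u` and `v` are nontrivial elements of a group `H`, then in the group of permutations of
`Option H` the element `u` does not commute with the conjugate of `v` by the transposition of
`none` and `some 1`. -/
theorem exists_not_commute {H : Type} [Group H] {u v : H} (hu : u ≠ 1) (hv : v ≠ 1) :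
    ∃ t : Equiv.Perm (Option H),
      MulAction.toPermHom H (Option H) u * (t * MulAction.toPermHom H (Option H) v * t⁻¹) ≠
        (t * MulAction.toPermHom H (Option H) v * t⁻¹) * MulAction.toPermHom H (Option H) u := by
  classical
  refine ⟨Equiv.swap none (some 1), fun h => hu ?_⟩
  have h1 := congrArg (fun σ : Equiv.Perm (Option H) => σ none) h
  simp only [Equiv.Perm.coe_mul, Function.comp_apply, Equiv.swap_inv, Equiv.swap_apply_left,
    MulAction.toPermHom_apply, MulAction.toPerm_apply, Option.smul_some, smul_eq_mul, mul_one,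
    Option.smul_none] at h1
  rw [Equiv.swap_apply_of_ne_of_ne (by simp) (by simpa using hv)] at h1
  simp only [Option.smul_some, smul_eq_mul, Option.some.injEq] at h1
  exact mul_eq_right.1 h1

/-- In the free group on countably many letters, if `u` and `v` are nontrivial words in the letters
`1, 2, …`, then `u` does not commute with the conjugate of `v` by the letter `0`. -/
theorem commutator_ne_one {u v : FreeGroup ℕ} (hu : u ≠ 1) (hv : v ≠ 1) :
    FreeGroup.map Nat.succ u * (FreeGroup.of 0 * FreeGroup.map Nat.succ v * (FreeGroup.of 0)⁻¹) ≠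
      (FreeGroup.of 0 * FreeGroup.map Nat.succ v * (FreeGroup.of 0)⁻¹) *
        FreeGroup.map Nat.succ u := by
  obtain ⟨t, ht⟩ := exists_not_commute hu hv
  let β : FreeGroup ℕ →* Equiv.Perm (Option (FreeGroup ℕ)) :=
    FreeGroup.lift fun n => Nat.casesOn n t fun k =>
      MulAction.toPermHom (FreeGroup ℕ) (Option (FreeGroup ℕ)) (FreeGroup.of k)
  have h0 : β (FreeGroup.of 0) = t := by simp [β]
  have h1 : ∀ w : FreeGroup ℕ, β (FreeGroup.map Nat.succ w) =
      MulAction.toPermHom (FreeGroup ℕ) (Option (FreeGroup ℕ)) w := by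
    intro w
    have : β.comp (FreeGroup.map Nat.succ) =
        MulAction.toPermHom (FreeGroup ℕ) (Option (FreeGroup ℕ)) := by
      apply FreeGroup.ext_hom
      intro k
      simp [β]
    exact DFunLike.congr_fun this w
  intro h
  apply ht
  have := congrArg β h
  simpa only [map_mul, map_inv, h0, h1] using this

/-- One word `W` whose survival implies the survival of all the words of a list, after a renaming of
the letters. -/
theorem exists_word (l : List (FreeGroup ℕ)) (hl : ∀ u ∈ l, u ≠ 1) :
    ∃ (e : ℕ → ℕ) (W : FreeGroup ℕ), Function.Injective e ∧ W ≠ 1 ∧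
      ∀ (Γ : Type) [Group Γ] (α : FreeGroup ℕ →* Γ), α W ≠ 1 →
        ∀ u ∈ l, α (FreeGroup.map e u) ≠ 1 := by
  induction l with
  | nil =>
    refine ⟨id, FreeGroup.of 0, Function.injective_id, FreeGroup.of_ne_one 0, ?_⟩
    intro Γ _ α _ u hu
    simp at hu
  | cons u l ih =>
    obtain ⟨e, W, he, hW, hall⟩ := ih fun v hv => hl v (List.mem_cons_of_mem _ hv)
    have hu : u ≠ 1 := hl u List.mem_cons_self
    have hu' : FreeGroup.map e u ≠ 1 := by
      intro h
      exact hu (FreeGroup.map_injective he (h.trans (map_one _).symm))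
    have hcomp : ∀ v : FreeGroup ℕ,
        FreeGroup.map (Nat.succ ∘ e) v = FreeGroup.map Nat.succ (FreeGroup.map e v) := by
      intro v
      rw [FreeGroup.map.comp]
    refine ⟨Nat.succ ∘ e,
      FreeGroup.map Nat.succ W * (FreeGroup.of 0 * FreeGroup.map Nat.succ (FreeGroup.map e u) *
        (FreeGroup.of 0)⁻¹) * ((FreeGroup.of 0 * FreeGroup.map Nat.succ (FreeGroup.map e u) *
        (FreeGroup.of 0)⁻¹) * FreeGroup.map Nat.succ W)⁻¹,
      Nat.succ_injective.comp he, ?_, ?_⟩
    · intro h
      exact commutator_ne_one hW hu' (mul_inv_eq_one.1 h)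
    · intro Γ _ α hα v hv
      rw [hcomp]
      rcases List.mem_cons.1 hv with rfl | hv
      · intro h
        apply hα
        simp [h]
      · refine hall Γ (α.comp (FreeGroup.map Nat.succ)) ?_ v hv
        intro h
        apply hα
        rw [MonoidHom.comp_apply] at h
        simp [h]

/-- A class of groups without a law discriminates every countable free group. -/
theorem NoLaw.discriminates_countable {𝒢 : (Γ : Type) → [Group Γ] → Prop} (h : NoLaw 𝒢) (X : Type)
    [Countable X] : Discriminates 𝒢 (FreeGroup X) := by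
  classical
  intro S hS hS1
  obtain ⟨f, hf⟩ := exists_injective_nat X
  obtain ⟨e, W, he, hW, hall⟩ := exists_word ((hS.toFinset.toList).map (FreeGroup.map f)) (by
    intro u hu
    obtain ⟨v, hv, rfl⟩ := List.mem_map.1 hu
    intro h1
    refine hS1 v (by simpa using hv) (FreeGroup.map_injective hf (h1.trans (map_one _).symm)))
  obtain ⟨Γ, i, hΓ, α, hα⟩ := h W hW
  refine ⟨Γ, i, hΓ, α.comp ((FreeGroup.map e).comp (FreeGroup.map f)), fun u hu => ?_⟩
  exact hall Γ α hα (FreeGroup.map f u)
    (List.mem_map.2 ⟨u, by simpa using hu, rfl⟩)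

/-- The elements of a finite set of elements of a free group lie in the free group on a finite set
of letters, which is a retract. -/
theorem exists_retract {X : Type} (S : Set (FreeGroup X)) (hS : S.Finite) :
    ∃ T : Set X, T.Finite ∧ ∃ ρ : FreeGroup X →* FreeGroup T,
      ∀ u ∈ S, FreeGroup.map Subtype.val (ρ u) = u := by
  classical
  let T : Set X := ⋃ u ∈ S, {a | a ∈ u.toWord.map Prod.fst}
  refine ⟨T, hS.biUnion fun u _ => List.finite_toSet _,
    FreeGroup.lift fun a => if h : a ∈ T then FreeGroup.of ⟨a, h⟩ else 1, fun u hu => ?_⟩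
  have h1 : ∀ L : List (X × Bool), (∀ a ∈ L.map Prod.fst, a ∈ T) →
      FreeGroup.map Subtype.val ((FreeGroup.lift fun a => if h : a ∈ T then
        FreeGroup.of (⟨a, h⟩ : T) else 1) (FreeGroup.mk L)) = FreeGroup.mk L := by
    intro L
    induction L with
    | nil => intro _; rw [← FreeGroup.one_eq_mk, map_one, map_one]
    | cons x L ih =>
      intro hL
      have h2 := ih fun a ha => hL a (by rw [List.map_cons]; exact List.mem_cons_of_mem _ ha)
      have hx : x.1 ∈ T := hL x.1 (by simp)
      have h3 : FreeGroup.mk (x :: L) = FreeGroup.mk [x] * FreeGroup.mk L := by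
        rw [FreeGroup.mul_mk]; rfl
      rw [h3, map_mul, map_mul, h2]
      congr 1
      obtain ⟨a, b⟩ := x
      have hx' : a ∈ T := hx
      cases b
      · simp [FreeGroup.lift_mk, hx', FreeGroup.of, FreeGroup.inv_mk, FreeGroup.map.mk,
          FreeGroup.invRev]
      · simp [FreeGroup.lift_mk, hx', FreeGroup.of, FreeGroup.map.mk]
  have h4 := h1 u.toWord fun a ha => Set.mem_iUnion₂.2 ⟨u, hu, ha⟩
  rwa [FreeGroup.mk_toWord] at h4

/-- **A class of groups without a law discriminates every free group.** -/
theorem NoLaw.discriminates {𝒢 : (Γ : Type) → [Group Γ] → Prop} (h : NoLaw 𝒢) (X : Type) :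
    Discriminates 𝒢 (FreeGroup X) := by
  intro S hS hS1
  obtain ⟨T, hT, ρ, hρ⟩ := exists_retract S hS
  have := hT.countable.to_subtype
  obtain ⟨Γ, i, hΓ, α, hα⟩ := h.discriminates_countable T (ρ '' S) (hS.image _) (by
    rintro _ ⟨u, hu, rfl⟩ h1
    apply hS1 u hu
    rw [← hρ u hu, h1, map_one])
  exact ⟨Γ, i, hΓ, α.comp ρ, fun u hu => hα _ ⟨u, hu, rfl⟩⟩

end Vale.Agent.P215.R2.H652
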