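import Vale.Agent.P215.R2.H652.Lawless

/-!
# P215: the finite symmetric groups have no common law
-/

noncomputable section

namespace Vale.Agent.P215.R2.H652

/-- A partial injection of a finite set extends to a permutation. -/
theorem exists_perm {X : Type} [Finite X] (r : X → X → Prop)
    (h1 : ∀ x y y', r x y → r x y' → y = y') (h2 : ∀ x x' y, r x y → r x' y → x = x') :
    ∃ σ : Equiv.Perm X, ∀ x y, r x y → σ x = y := by
  classical
  have := Fintype.ofFinite X
  let p : X → Prop := fun x => ∃ y, r x y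
  let q : X → Prop := fun y => ∃ x, r x y
  let f : {x // p x} → {y // q y} := fun x => ⟨x.2.choose, x.1, x.2.choose_spec⟩
  have hf : Function.Bijective f := by
    constructor
    · intro x x' h
      have h' : x.2.choose = x'.2.choose := congrArg Subtype.val h
      have a := x.2.choose_spec
      have b := x'.2.choose_spec
      rw [h'] at a
      exact Subtype.ext (h2 _ _ _ a b)
    · rintro ⟨y, x, hxy⟩
      refine ⟨⟨x, y, hxy⟩, Subtype.ext ?_⟩
      exact h1 _ _ _ (Exists.choose_spec (⟨y, hxy⟩ : ∃ y, r x y)) hxy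
  refine ⟨(Equiv.ofBijective f hf).extendSubtype, fun x y hxy => ?_⟩
  rw [Equiv.extendSubtype_apply_of_mem _ x ⟨y, hxy⟩]
  exact h1 _ _ _ (Exists.choose_spec (⟨y, hxy⟩ : ∃ y, r x y)) hxy

/-- the relation of the letter `a`: the letter number `j` maps the point `j + 1` to the point `j` -/
def rel (L : List (ℕ × Bool)) (a : ℕ) (x y : Fin (L.length + 1)) : Prop :=
  (∃ j : ℕ, L[j]? = some (a, true) ∧ x.1 = j + 1 ∧ y.1 = j) ∨
    (∃ j : ℕ, L[j]? = some (a, false) ∧ x.1 = j ∧ y.1 = j + 1)

theorem not_both {L : List (ℕ × Bool)} (hL : FreeGroup.IsReduced L) {a : ℕ} {b : Bool} {j : ℕ}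
    (h1 : L[j]? = some (a, b)) (h2 : L[j + 1]? = some (a, !b)) : False := by
  obtain ⟨hj, h1⟩ := List.getElem?_eq_some_iff.1 h1
  obtain ⟨hj', h2⟩ := List.getElem?_eq_some_iff.1 h2
  have := List.isChain_iff_getElem.1 hL j hj'
  rw [h1, h2] at this
  simpa using this rfl

theorem exists_sigma {L : List (ℕ × Bool)} (hL : FreeGroup.IsReduced L) (a : ℕ) :
    ∃ σ : Equiv.Perm (Fin (L.length + 1)), ∀ x y, rel L a x y → σ x = y := by
  apply exists_perm
  · rintro x y y' (⟨j, hj, hx, hy⟩ | ⟨j, hj, hx, hy⟩) (⟨j', hj', hx', hy'⟩ | ⟨j', hj', hx', hy'⟩)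
    · exact Fin.ext (by omega)
    · exfalso
      have : j' = j + 1 := by omega
      subst this
      exact not_both hL hj hj'
    · exfalso
      have : j = j' + 1 := by omega
      subst this
      exact not_both hL hj' hj
    · exact Fin.ext (by omega)
  · rintro x x' y (⟨j, hj, hx, hy⟩ | ⟨j, hj, hx, hy⟩) (⟨j', hj', hx', hy'⟩ | ⟨j', hj', hx', hy'⟩)
    · exact Fin.ext (by omega)
    · exfalso
      have : j = j' + 1 := by omega
      subst this
      exact not_both hL hj' hj
    · exfalso
      have : j' = j + 1 := by omega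
      subst this
      exact not_both hL hj hj'
    · exact Fin.ext (by omega)

/-- **The finite symmetric groups have no common law.** -/
theorem exists_perm_ne_one (w : FreeGroup ℕ) (hw : w ≠ 1) :
    ∃ (n : ℕ) (α : FreeGroup ℕ →* Equiv.Perm (Fin n)), α w ≠ 1 := by
  classical
  obtain ⟨L, hL⟩ : ∃ L, L = w.toWord := ⟨_, rfl⟩
  have hred : FreeGroup.IsReduced L := hL ▸ FreeGroup.isReduced_toWord
  have hLne : L ≠ [] := fun h => hw (FreeGroup.toWord_eq_nil_iff.1 (hL ▸ h))
  choose σ hσ using fun a => exists_sigma hred a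
  refine ⟨L.length + 1, FreeGroup.lift σ, fun h => ?_⟩
  have key : ∀ k, (hk : k ≤ L.length) → ((L.drop (L.length - k)).map fun x : ℕ × Bool =>
      cond x.2 (σ x.1) (σ x.1)⁻¹).prod (Fin.last _) = ⟨L.length - k, by omega⟩ := by
    intro k
    induction k with
    | zero =>
      intro _
      simp [Fin.last]
    | succ k ih =>
      intro hk
      have hlt : L.length - (k + 1) < L.length := by omega
      rw [List.drop_eq_getElem_cons hlt]
      rw [show L.length - (k + 1) + 1 = L.length - k by omega]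
      rw [List.map_cons, List.prod_cons, Equiv.Perm.mul_apply, ih (by omega)]
      obtain ⟨⟨a, b⟩, hab⟩ : ∃ c, c = L[L.length - (k + 1)] := ⟨_, rfl⟩
      rw [← hab]
      have hget : L[L.length - (k + 1)]? = some (a, b) := by
        rw [List.getElem?_eq_getElem hlt, hab]
      cases b with
      | true =>
        refine hσ a _ _ (Or.inl ⟨L.length - (k + 1), hget, ?_, rfl⟩)
        simp only
        omega
      | false =>
        show (σ a)⁻¹ _ = _
        rw [Equiv.Perm.inv_eq_iff_eq]
        symm
        refine hσ a _ _ (Or.inr ⟨L.length - (k + 1), hget, rfl, ?_⟩)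
        simp only
        omega
  have h0 := key L.length le_rfl
  have h1 : FreeGroup.lift σ w = ((L.drop (L.length - L.length)).map fun x : ℕ × Bool =>
      cond x.2 (σ x.1) (σ x.1)⁻¹).prod := by
    rw [Nat.sub_self, List.drop_zero]
    conv_lhs => rw [← FreeGroup.mk_toWord (x := w), ← hL]
    exact FreeGroup.lift_mk
  rw [← h1, h] at h0
  have h2 := congrArg Fin.val h0
  simp only [Equiv.Perm.coe_one, id_eq, Fin.val_last, Nat.sub_self] at h2
  exact hLne (List.length_eq_zero_iff.1 h2)

/-- The class of the finite symmetric groups. -/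
def FiniteSymmetric (Γ : Type) [Group Γ] : Prop := ∃ n : ℕ, Nonempty (Γ ≃* Equiv.Perm (Fin n))

theorem noLaw_finiteSymmetric : NoLaw @FiniteSymmetric := by
  intro w hw
  obtain ⟨n, α, hα⟩ := exists_perm_ne_one w hw
  exact ⟨Equiv.Perm (Fin n), inferInstance, ⟨n, ⟨MulEquiv.refl _⟩⟩, α, hα⟩

end Vale.Agent.P215.R2.H652
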