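import Vale.Agent.P215.R2.H743.Uniform
import Vale.Agent.P215.R2.H652.Perm
import Vale.Agent.P215.R2.H652.Fact
import Vale.Agent.P215.R2.H652.Embed

/-!
# P215: goodness of the free groups, classes of groups without a law, random permutations

`Kills`, `Good`, `CappedGrope`, `FramedDisc` are those of `H788.Defs`, and `Pi1`, `GDisc`,
`FinitelyMany`, `OneDisc` those of `R2.H743.Uniform`.
-/

noncomputable section

namespace Vale.Agent.P215.R2.H652

open Vale.Agent.P215.H788 Vale.Agent.P215.H743 Filter Topology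

/-- A set `V` of words is a set of laws of the group `Γ`. -/
def Satisfies (V : Set (FreeGroup ℕ)) (Γ : Type) [Group Γ] : Prop :=
  ∀ v ∈ V, ∀ α : FreeGroup ℕ →* Γ, α v = 1

/-- Let `ψ` be a homomorphism from the fundamental group of the thickening of `G` to a free group.
The proportion of the homomorphisms `α` from the free group to the symmetric group of degree `n`
such that the double point loops of one of the discs of the list `L` are in the kernel of
`α ∘ ψ`. -/
def permProportion {X : Type} {G : CappedGrope} (ψ : Pi1 G →* FreeGroup X) (L : List (GDisc G))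
    (n : ℕ) : ℝ :=
  (Nat.card {α : FreeGroup X →* Equiv.Perm (Fin n) // ∃ D ∈ L, D.Kills (α.comp ψ)} : ℝ) /
    Nat.card (FreeGroup X →* Equiv.Perm (Fin n))

/-- A disc which is not killed by `ψ` has a bad loop: an element of the fundamental group which
`ψ` does not kill and which is killed by every homomorphism killing the disc. -/
theorem exists_bad_loop {G : CappedGrope} {Δ : Type} [Group Δ] {ψ : Pi1 G →* Δ} {D : GDisc G}
    (h : ¬ D.Kills ψ) : ∃ u : Pi1 G, ψ u ≠ 1 ∧
      ∀ (Γ : Type) [Group Γ] (φ : Pi1 G →* Γ), D.Kills φ → φ u = 1 := by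
  by_contra hD
  apply h
  intro k c l
  by_contra hne
  exact hD ⟨_, hne, fun Γ _ φ hφ => hφ k c l⟩

/-- **The local criterion.**  If `K` discriminates `Δ`, then `ψ` kills a disc if and only if
finitely many discs suffice for all homomorphisms `α ∘ ψ`, `α` a homomorphism to a member of
`K`. -/
theorem exists_kills_iff {K : (Q : Type) → [Group Q] → Prop} {Δ : Type} [Group Δ]
    (h : Discriminates K Δ) (G : CappedGrope) (ψ : Pi1 G →* Δ) :
    (∃ D : GDisc G, D.Kills ψ) ↔
      ∃ L : List (GDisc G), ∀ (Q : Type) [Group Q], K Q →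
        ∀ α : Δ →* Q, ∃ D ∈ L, D.Kills (α.comp ψ) := by
  constructor
  · rintro ⟨D, hD⟩
    exact ⟨[D], fun Q _ _ α => ⟨D, List.mem_cons_self, kills_comp D ψ α hD⟩⟩
  · rintro ⟨L, hall⟩
    by_contra hno
    have hbad : ∀ D : GDisc G, ∃ u : Pi1 G, ψ u ≠ 1 ∧
        ∀ (Γ : Type) [Group Γ] (φ : Pi1 G →* Γ), D.Kills φ → φ u = 1 :=
      fun D => exists_bad_loop fun hD => hno ⟨D, hD⟩
    choose u hu1 hu2 using hbad
    obtain ⟨Q, i, hQ, α, hα⟩ := h ((fun D => ψ (u D)) '' {D | D ∈ L}) (L.finite_toSet.image _) (by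
      rintro _ ⟨D, _, rfl⟩
      exact hu1 D)
    obtain ⟨D, hD, hk⟩ := hall Q hQ α
    exact hα _ ⟨D, hD, rfl⟩ (hu2 D Q _ hk)

/-- A group discriminated by a class for which finitely many discs suffice is good. -/
theorem good_of_discriminates {K : (Q : Type) → [Group Q] → Prop} (hU : FinitelyMany K)
    {Δ : Type} [Group Δ] (h : Discriminates K Δ) : Good Δ := by
  intro G ψ
  obtain ⟨L, hall⟩ := hU G
  exact (exists_kills_iff h G ψ).2 ⟨L, fun Q _ hQ α => hall Q hQ (α.comp ψ)⟩

/-- **The dichotomy**: a class for which finitely many discs suffice satisfies a law, or all free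
groups are good. -/
theorem dichotomy {K : (Q : Type) → [Group Q] → Prop} (hU : FinitelyMany K) :
    (∃ w : FreeGroup ℕ, w ≠ 1 ∧ ∀ (Q : Type) [Group Q], K Q → ∀ α : FreeGroup ℕ →* Q, α w = 1) ∨
      ∀ X : Type, Good (FreeGroup X) := by
  by_cases h : NoLaw K
  · exact Or.inr fun X => good_of_discriminates hU (h.discriminates X)
  · left
    simp only [NoLaw, not_forall, not_exists] at h
    obtain ⟨w, hw, hall⟩ := h
    refine ⟨w, hw, fun Γ i hΓ α => ?_⟩
    by_contra hne
    exact hall Γ i ⟨hΓ, α, hne⟩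

/-- Classes defined by laws: all members are good if and only if one disc in each thickening
suffices for all homomorphisms to all members. -/
theorem laws_iff (V : Set (FreeGroup ℕ)) :
    (∀ (Γ : Type) [Group Γ], Satisfies V Γ → Good Γ) ↔ OneDisc (Satisfies V) := by
  constructor
  · intro h G
    let N : Subgroup (Pi1 G) :=
      Subgroup.normalClosure {x | ∃ v ∈ V, ∃ α : FreeGroup ℕ →* Pi1 G, x = α v}
    have hN : ∀ v ∈ V, ∀ α : FreeGroup ℕ →* Pi1 G, α v ∈ N := fun v hv α =>
      Subgroup.subset_normalClosure ⟨v, hv, α, rfl⟩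
    have hsat : Satisfies V (Pi1 G ⧸ N) := by
      intro v hv β
      choose g hg using fun n : ℕ => QuotientGroup.mk'_surjective N (β (FreeGroup.of n))
      have h1 : (QuotientGroup.mk' N).comp (FreeGroup.lift g) = β := by
        apply FreeGroup.ext_hom
        intro n
        rw [MonoidHom.comp_apply, FreeGroup.lift_apply_of, hg]
      rw [← h1, MonoidHom.comp_apply]
      exact (QuotientGroup.eq_one_iff _).2 (hN v hv _)
    obtain ⟨D, hD⟩ := h (Pi1 G ⧸ N) hsat G (QuotientGroup.mk' N)
    refine ⟨D, fun Γ _ hΓ φ => ?_⟩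
    have hle : N ≤ φ.ker := by
      refine Subgroup.normalClosure_le_normal ?_
      rintro _ ⟨v, hv, α, rfl⟩
      exact hΓ v hv (φ.comp α)
    have h2 : (QuotientGroup.lift N φ hle).comp (QuotientGroup.mk' N) = φ := by
      ext x
      rfl
    rw [← h2]
    exact kills_comp D _ _ hD
  · intro h Γ _ hΓ G φ
    obtain ⟨D, hD⟩ := h G
    exact ⟨D, hD Γ hΓ φ⟩

/-- The free group of rank two is good if and only if all free groups are. -/
theorem good_free_iff : Good (FreeGroup (Fin 2)) ↔ ∀ X : Type, Good (FreeGroup X) := by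
  refine ⟨fun h X G ψ => ?_, fun h => h _⟩
  obtain ⟨S, hS, hfin⟩ := (Group.fg_iff (G := Pi1 G)).1 (fg_pi1 G)
  obtain ⟨T, hT, ρ, hρ⟩ := exists_retract (ψ '' S) (hfin.image _)
  have := hT.countable.to_subtype
  obtain ⟨f, hf⟩ := exists_embedding T
  obtain ⟨D, hD⟩ := h G (f.comp (ρ.comp ψ))
  have h1 : D.Kills (ρ.comp ψ) := (kills_comp_iff D _ f hf).1 hD
  have h2 : (FreeGroup.map Subtype.val).comp (ρ.comp ψ) = ψ := by
    refine MonoidHom.eq_of_eqOn_dense hS fun u hu => ?_
    exact hρ _ ⟨u, hu, rfl⟩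
  refine ⟨D, ?_⟩
  rw [← h2]
  exact kills_comp D _ _ h1

/-- the homomorphisms are the tuples -/
theorem permProportion_eq {X : Type} {G : CappedGrope} (ψ : Pi1 G →* FreeGroup X)
    (L : List (GDisc G)) (n : ℕ) :
    permProportion ψ L n =
      tupleProportion X n fun σ => ∃ D ∈ L, D.Kills ((FreeGroup.lift σ).comp ψ) := by
  unfold permProportion tupleProportion
  rw [Nat.card_congr (FreeGroup.lift (α := X) (β := Equiv.Perm (Fin n))).symm]
  congr 2
  exact Nat.card_congr (FreeGroup.lift.subtypeEquiv fun σ => Iff.rfl).symm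

/-- **The zero-one law.**  Let `ψ` be a homomorphism to a free group of finite rank.  Either `ψ`
kills one of the discs of the list `L`, and then all its compositions with homomorphisms do, or the
proportion of the homomorphisms from the free group to the symmetric group of degree `n` whose
composition with `ψ` kills one of them is at most `C * (n!) ^ (-c)`. -/
theorem zero_one_perm {X : Type} [Finite X] {G : CappedGrope} (ψ : Pi1 G →* FreeGroup X)
    (L : List (GDisc G)) :
    (∃ D ∈ L, D.Kills ψ) ∨ FactSmall fun n => permProportion ψ L n := by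
  classical
  by_cases hL : ∃ D ∈ L, D.Kills ψ
  · exact Or.inl hL
  right
  have h1 : ∀ D ∈ L.toFinset, FactSmall fun n =>
      tupleProportion X n (fun σ => D.Kills ((FreeGroup.lift σ).comp ψ)) := by
    intro D hD
    obtain ⟨u, hu1, hu2⟩ := exists_bad_loop fun h => hL ⟨D, List.mem_toFinset.1 hD, h⟩
    exact (factSmall_relation (ψ u) hu1).mono fun n => proportion_mono fun σ hσ => hu2 _ _ hσ
  refine (FactSmall.sum L.toFinset h1).mono fun n => ?_
  rw [permProportion_eq]
  have h2 := proportion_exists_le (X := X) (n := n) L.toFinset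
    (fun D σ => D.Kills ((FreeGroup.lift σ).comp ψ))
  simpa only [List.mem_toFinset] using h2

theorem permProportion_eq_one {X : Type} [Finite X] {G : CappedGrope} {ψ : Pi1 G →* FreeGroup X}
    {L : List (GDisc G)} (h : ∃ D ∈ L, D.Kills ψ) (n : ℕ) : permProportion ψ L n = 1 := by
  rw [permProportion_eq]
  refine proportion_eq_one fun σ => ?_
  obtain ⟨D, hD, hk⟩ := h
  exact ⟨D, hD, kills_comp D _ _ hk⟩

/-- The random form of the criterion. -/
theorem random_iff {X : Type} [Finite X] (G : CappedGrope) (ψ : Pi1 G →* FreeGroup X) :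
    (∃ D : GDisc G, D.Kills ψ) ↔ ∃ L : List (GDisc G),
      ¬ FactSmall fun n => permProportion ψ L n := by
  constructor
  · rintro ⟨D, hD⟩
    refine ⟨[D], fun h => not_factSmall_one (h.mono fun n => ?_)⟩
    exact (permProportion_eq_one ⟨D, List.mem_cons_self, hD⟩ n).symm.le
  · rintro ⟨L, hL⟩
    obtain ⟨D, -, hD⟩ := (zero_one_perm ψ L).resolve_right hL
    exact ⟨D, hD⟩

/-- the criterion for the finite symmetric groups, written out -/
theorem exists_kills_iff_perm {X : Type} (G : CappedGrope) (ψ : Pi1 G →* FreeGroup X) :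
    (∃ D : GDisc G, D.Kills ψ) ↔
      ∃ L : List (GDisc G), ∀ (n : ℕ) (α : FreeGroup X →* Equiv.Perm (Fin n)),
        ∃ D ∈ L, D.Kills (α.comp ψ) := by
  rw [exists_kills_iff (noLaw_finiteSymmetric.discriminates X) G ψ]
  refine exists_congr fun L => ⟨fun h n α => ?_, fun h Γ _ hΓ α => ?_⟩
  · exact h (Equiv.Perm (Fin n)) ⟨n, ⟨MulEquiv.refl _⟩⟩ α
  · obtain ⟨n, ⟨e⟩⟩ := hΓ
    obtain ⟨D, hD, hk⟩ := h n (e.toMonoidHom.comp α)
    refine ⟨D, hD, ?_⟩
    have h1 := kills_comp D _ e.symm.toMonoidHom hk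
    have h2 : e.symm.toMonoidHom.comp ((e.toMonoidHom.comp α).comp ψ) = α.comp ψ := by
      ext x
      simp
    rwa [h2] at h1

/-- **The equivalent forms of the question whether the free group of rank two is good.** -/
theorem good_f2_tfae :
    [Good (FreeGroup (Fin 2)),
      ∀ X : Type, Good (FreeGroup X),
      ∀ (G : CappedGrope) (ψ : Pi1 G →* FreeGroup (Fin 2)), ∃ L : List (GDisc G),
        ∀ (n : ℕ) (α : FreeGroup (Fin 2) →* Equiv.Perm (Fin n)), ∃ D ∈ L, D.Kills (α.comp ψ),
      ∀ (G : CappedGrope) (ψ : Pi1 G →* FreeGroup (Fin 2)), ∃ L : List (GDisc G),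
        ¬ FactSmall fun n => permProportion ψ L n].TFAE := by
  tfae_have 1 ↔ 2 := good_free_iff
  tfae_have 1 ↔ 3 := forall_congr' fun G => forall_congr' fun ψ => exists_kills_iff_perm G ψ
  tfae_have 1 ↔ 4 := forall_congr' fun G => forall_congr' fun ψ => random_iff G ψ
  tfae_finish

/-- The contribution of this file to the hand-in. -/
theorem part652 :
    (∀ K : (Q : Type) → [Group Q] → Prop, NoLaw K →
      ∀ (X : Type) (G : CappedGrope) (ψ : Pi1 G →* FreeGroup X),
        (∃ D : GDisc G, D.Kills ψ) ↔ ∃ L : List (GDisc G), ∀ (Q : Type) [Group Q], K Q →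
          ∀ α : FreeGroup X →* Q, ∃ D ∈ L, D.Kills (α.comp ψ)) ∧
    (∀ K : (Q : Type) → [Group Q] → Prop, FinitelyMany K →
      ((∃ w : FreeGroup ℕ, w ≠ 1 ∧
          ∀ (Q : Type) [Group Q], K Q → ∀ α : FreeGroup ℕ →* Q, α w = 1) ∨
        ∀ X : Type, Good (FreeGroup X)) ∧
      ∀ (Δ : Type) [Group Δ], Discriminates K Δ → Good Δ) ∧
    (∀ V : Set (FreeGroup ℕ),
      (∀ (Γ : Type) [Group Γ], Satisfies V Γ → Good Γ) ↔ OneDisc (Satisfies V)) ∧
    (∀ (X : Type) [Finite X] (G : CappedGrope) (ψ : Pi1 G →* FreeGroup X) (L : List (GDisc G)),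
      (∃ D ∈ L, D.Kills ψ) ∨ FactSmall fun n => permProportion ψ L n) ∧
    [Good (FreeGroup (Fin 2)),
      ∀ X : Type, Good (FreeGroup X),
      ∀ (G : CappedGrope) (ψ : Pi1 G →* FreeGroup (Fin 2)), ∃ L : List (GDisc G),
        ∀ (n : ℕ) (α : FreeGroup (Fin 2) →* Equiv.Perm (Fin n)), ∃ D ∈ L, D.Kills (α.comp ψ),
      ∀ (G : CappedGrope) (ψ : Pi1 G →* FreeGroup (Fin 2)), ∃ L : List (GDisc G),
        ¬ FactSmall fun n => permProportion ψ L n].TFAE :=
  ⟨fun _ hK X G ψ => exists_kills_iff (hK.discriminates X) G ψ,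
    fun _ hU => ⟨dichotomy hU, fun _ _ h => good_of_discriminates hU h⟩,
    laws_iff, fun _ _ _ ψ L => zero_one_perm ψ L, good_f2_tfae⟩

end Vale.Agent.P215.R2.H652
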