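import Mathlib

/-!
# P215: a nontrivial word is asymptotically never a relation between random permutations

For a tuple `σ` of permutations of `Fin n` and a reduced word `L` the walk of a point `p` along `L`
is followed; the tuples for which the walk is not simple are counted by switching one value.
-/

noncomputable section

namespace Vale.Agent.P215.R2.H652

open Finset Filter Topology

variable {X : Type} [DecidableEq X] {n : ℕ}

/-- the permutation of a letter -/
def ev (σ : X → Equiv.Perm (Fin n)) (x : X × Bool) : Equiv.Perm (Fin n) :=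
  cond x.2 (σ x.1) (σ x.1)⁻¹

/-- the end point of the walk of `p` along a word, the last letter first -/
def walk (σ : X → Equiv.Perm (Fin n)) (p : Fin n) : List (X × Bool) → Fin n
  | [] => p
  | x :: l => ev σ x (walk σ p l)

/-- the points visited by the walk -/
def visited (σ : X → Equiv.Perm (Fin n)) (p : Fin n) : List (X × Bool) → Finset (Fin n)
  | [] => {p}
  | x :: l => insert (walk σ p (x :: l)) (visited σ p l)

/-- the walk is simple -/
def Simple (σ : X → Equiv.Perm (Fin n)) (p : Fin n) : List (X × Bool) → Prop
  | [] => True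
  | x :: l => Simple σ p l ∧ walk σ p (x :: l) ∉ visited σ p l

/-- the value of the letter `x` is switched -/
def switch (σ : X → Equiv.Perm (Fin n)) (x : X × Bool) (y z : Fin n) : X → Equiv.Perm (Fin n) :=
  Function.update σ x.1 (cond x.2 (Equiv.swap y z * σ x.1) (σ x.1 * Equiv.swap y z))

theorem ev_switch_self (σ : X → Equiv.Perm (Fin n)) (x : X × Bool) (y z : Fin n) :
    ev (switch σ x y z) x = Equiv.swap y z * ev σ x := by
  obtain ⟨a, b⟩ := x
  cases b <;> simp [ev, switch]

theorem ev_switch_inv (σ : X → Equiv.Perm (Fin n)) (a : X) (b : Bool) (y z : Fin n) :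
    ev (switch σ (a, b) y z) (a, !b) = ev σ (a, !b) * Equiv.swap y z := by
  cases b <;> simp [ev, switch]

theorem ev_switch_other (σ : X → Equiv.Perm (Fin n)) (a a' : X) (b b' : Bool) (y z : Fin n)
    (h : a' ≠ a) : ev (switch σ (a, b) y z) (a', b') = ev σ (a', b') := by
  simp [ev, switch, Function.update_of_ne h]

theorem switch_switch (σ : X → Equiv.Perm (Fin n)) (x : X × Bool) (y z : Fin n) :
    switch (switch σ x y z) x y z = σ := by
  obtain ⟨a, b⟩ := x
  funext c
  by_cases h : c = a
  · subst h
    cases b <;> simp [switch, mul_assoc]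
  · simp [switch, Function.update_of_ne h]

omit [DecidableEq X] in
theorem card_visited_le (σ : X → Equiv.Perm (Fin n)) (p : Fin n) (l : List (X × Bool)) :
    (visited σ p l).card ≤ l.length + 1 := by
  induction l with
  | nil => simp [visited]
  | cons x l ih =>
    rw [visited, List.length_cons]
    exact (Finset.card_insert_le _ _).trans (by omega)

omit [DecidableEq X] in
theorem walk_mem_visited (σ : X → Equiv.Perm (Fin n)) (p : Fin n) {s l : List (X × Bool)}
    (h : s <:+ l) : walk σ p s ∈ visited σ p l := by
  induction l with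
  | nil =>
    rw [List.suffix_nil.1 h]
    simp [visited, walk]
  | cons x l ih =>
    rcases List.suffix_cons_iff.1 h with rfl | h
    · exact Finset.mem_insert_self _ _
    · exact Finset.mem_insert_of_mem (ih h)

omit [DecidableEq X] in
/-- in a simple walk the points of two different suffixes are different -/
theorem Simple.eq_of_walk_eq {σ : X → Equiv.Perm (Fin n)} {p : Fin n} {l : List (X × Bool)}
    (h : Simple σ p l) {s : List (X × Bool)} (hs : s <:+ l) (he : walk σ p s = walk σ p l) :
    s = l := by
  cases l with
  | nil => exact List.suffix_nil.1 hs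
  | cons x l =>
    rcases List.suffix_cons_iff.1 hs with rfl | hs
    · rfl
    · exact absurd (he ▸ walk_mem_visited σ p hs) h.2

/-- **Switching.**  If the walk along `l` is simple and `x :: l` is reduced, switching the value of
the letter `x` at the end of the walk to a new point does not change the walk along `l`. -/
theorem walk_switch {σ : X → Equiv.Perm (Fin n)} {p : Fin n} {l : List (X × Bool)}
    {x : X × Bool} (h : Simple σ p l) (hr : FreeGroup.IsReduced (x :: l)) {y z : Fin n}
    (hy : y = walk σ p (x :: l)) (hz : z ∉ visited σ p l) {s : List (X × Bool)} (hs : s <:+ l) :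
    walk (switch σ x y z) p s = walk σ p s := by
  induction s with
  | nil => rfl
  | cons c s ih =>
    have hs' : s <:+ l := (List.suffix_cons c s).trans hs
    obtain ⟨a, b⟩ := x
    obtain ⟨a', b'⟩ := c
    rw [walk, ih hs', walk]
    by_cases haa : a' = a
    · subst haa
      by_cases hbb : b' = b
      · subst hbb
        rw [ev_switch_self, Equiv.Perm.mul_apply]
        refine Equiv.swap_apply_of_ne_of_ne ?_ ?_
        · intro he
          rw [hy, walk] at he
          have h1 := (ev σ (a', b')).injective he
          have h2 := h.eq_of_walk_eq hs' h1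
          subst h2
          have := hs.length_le
          simp at this
        · intro he
          exact hz (he ▸ walk_mem_visited σ p hs)
      · have hb : b' = !b := by cases b <;> cases b' <;> simp_all
        subst hb
        rw [ev_switch_inv, Equiv.Perm.mul_apply]
        congr 1
        refine Equiv.swap_apply_of_ne_of_ne ?_ ?_
        · intro he
          have h1 : walk σ p ((a', !b) :: s) = walk σ p l := by
            rw [walk, he, hy, walk]
            cases b <;> simp [ev]
          have h2 := h.eq_of_walk_eq hs h1
          subst h2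
          have h3 := (List.isChain_cons_cons.1 hr).1 rfl
          cases b <;> simp at h3
        · intro he
          exact hz (he ▸ walk_mem_visited σ p hs')
    · rw [ev_switch_other _ _ _ _ _ _ _ haa]

theorem visited_switch {σ : X → Equiv.Perm (Fin n)} {p : Fin n} {l : List (X × Bool)}
    {x : X × Bool} (h : Simple σ p l) (hr : FreeGroup.IsReduced (x :: l)) {y z : Fin n}
    (hy : y = walk σ p (x :: l)) (hz : z ∉ visited σ p l) {s : List (X × Bool)} (hs : s <:+ l) :
    visited (switch σ x y z) p s = visited σ p s := by
  induction s with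
  | nil => rfl
  | cons c s ih =>
    rw [visited, visited, ih ((List.suffix_cons c s).trans hs), walk_switch h hr hy hz hs]

section count

open Classical in
/-- the tuples for which the walk is simple before the letter `x` and not after it -/
def bad [Fintype X] (p : Fin n) (x : X × Bool) (l : List (X × Bool)) :
    Finset (X → Equiv.Perm (Fin n)) :=
  univ.filter fun σ => Simple σ p l ∧ walk σ p (x :: l) ∈ visited σ p l

open Classical in
/-- the tuples for which the walk is not simple -/
def notSimple [Fintype X] (p : Fin n) (l : List (X × Bool)) :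
    Finset (X → Equiv.Perm (Fin n)) :=
  univ.filter fun σ => ¬ Simple σ p l

theorem card_bad [Fintype X] (p : Fin n) (x : X × Bool) (l : List (X × Bool))
    (hr : FreeGroup.IsReduced (x :: l)) :
    (bad p x l).card * (n - (l.length + 1)) ≤
      Fintype.card (X → Equiv.Perm (Fin n)) * (l.length + 1) := by
  classical
  let A : Finset (Σ _ : X → Equiv.Perm (Fin n), Fin n) :=
    (bad p x l).sigma fun σ => (visited σ p l)ᶜ
  let B : Finset (Σ _ : X → Equiv.Perm (Fin n), Fin n) :=
    (univ : Finset (X → Equiv.Perm (Fin n))).sigma fun σ => visited σ p l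
  have hA : (bad p x l).card * (n - (l.length + 1)) ≤ A.card := by
    rw [Finset.card_sigma, ← smul_eq_mul]
    refine Finset.card_nsmul_le_sum _ _ _ fun σ _ => ?_
    rw [Finset.card_compl, Fintype.card_fin]
    have := card_visited_le σ p l
    omega
  have hB : B.card ≤ Fintype.card (X → Equiv.Perm (Fin n)) * (l.length + 1) := by
    rw [Finset.card_sigma, ← smul_eq_mul, ← Finset.card_univ]
    exact Finset.sum_le_card_nsmul _ _ _ fun σ _ => card_visited_le σ p l
  refine hA.trans (le_trans ?_ hB)
  refine Finset.card_le_card_of_injOn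
    (fun t => ⟨switch t.1 x (walk t.1 p (x :: l)) t.2, walk t.1 p (x :: l)⟩) ?_ ?_
  · rintro ⟨σ, z⟩ ht
    simp only [A, bad, Finset.coe_sigma, Set.mem_sigma_iff, Finset.mem_coe, Finset.mem_filter,
      Finset.mem_univ, true_and, Finset.mem_compl] at ht
    obtain ⟨⟨h1, h2⟩, h3⟩ := ht
    simp only [B, Finset.coe_sigma, Set.mem_sigma_iff, Finset.mem_coe, Finset.mem_univ, true_and]
    rw [visited_switch h1 hr rfl h3 (List.suffix_refl l)]
    exact h2
  · have key : ∀ t ∈ (A : Set (Σ _ : X → Equiv.Perm (Fin n), Fin n)),
        walk (switch t.1 x (walk t.1 p (x :: l)) t.2) p (x :: l) = t.2 := by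
      rintro ⟨σ, z⟩ ht
      simp only [A, bad, Finset.coe_sigma, Set.mem_sigma_iff, Finset.mem_coe, Finset.mem_filter,
        Finset.mem_univ, true_and, Finset.mem_compl] at ht
      obtain ⟨⟨h1, h2⟩, h3⟩ := ht
      rw [walk, walk_switch h1 hr rfl h3 (List.suffix_refl l), ev_switch_self,
        Equiv.Perm.mul_apply]
      exact Equiv.swap_apply_left _ _
    rintro ⟨σ, z⟩ ht ⟨σ', z'⟩ ht' he
    simp only [Sigma.mk.injEq, heq_eq_eq] at he
    obtain ⟨he1, he2⟩ := he
    have k := key _ ht
    have k' := key _ ht'
    simp only at k k'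
    have hz : z = z' := by rw [← k, ← k', he1]
    subst hz
    rw [he2] at he1
    have := congrArg (fun τ => switch τ x (walk σ' p (x :: l)) z) he1
    simp only [switch_switch] at this
    subst this
    rfl

theorem card_notSimple [Fintype X] (p : Fin n) (K : ℕ) (l : List (X × Bool))
    (hr : FreeGroup.IsReduced l) (hK : l.length ≤ K) :
    (notSimple p l).card * (n - K) ≤
      Fintype.card (X → Equiv.Perm (Fin n)) * (K * l.length) := by
  classical
  induction l with
  | nil => simp [notSimple, Simple]
  | cons x l ih =>
    have hr' : FreeGroup.IsReduced l := List.IsChain.tail hr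
    have h1 : notSimple p (x :: l) ⊆ notSimple p l ∪ bad p x l := by
      intro σ hσ
      simp only [notSimple, bad, Finset.mem_filter, Finset.mem_univ, true_and, Finset.mem_union,
        Simple, not_and, not_not] at hσ ⊢
      by_cases h : Simple σ p l
      · exact Or.inr ⟨h, hσ h⟩
      · exact Or.inl h
    have h2 : (notSimple p (x :: l)).card ≤ (notSimple p l).card + (bad p x l).card :=
      (Finset.card_le_card h1).trans (Finset.card_union_le _ _)
    rw [List.length_cons] at hK
    have h3 := ih hr' (by omega)
    have h4 := card_bad (n := n) p x l hr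
    have h5 : (bad p x l).card * (n - K) ≤
        Fintype.card (X → Equiv.Perm (Fin n)) * K := by
      calc _ ≤ (bad p x l).card * (n - (l.length + 1)) := Nat.mul_le_mul_left _ (by omega)
        _ ≤ _ := h4
        _ ≤ _ := Nat.mul_le_mul_left _ hK
    calc _ ≤ ((notSimple p l).card + (bad p x l).card) * (n - K) := Nat.mul_le_mul_right _ h2
      _ = (notSimple p l).card * (n - K) + (bad p x l).card * (n - K) := by ring
      _ ≤ Fintype.card (X → Equiv.Perm (Fin n)) * (K * l.length) +
          Fintype.card (X → Equiv.Perm (Fin n)) * K := Nat.add_le_add h3 h5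
      _ = _ := by rw [List.length_cons]; ring

end count

omit [DecidableEq X] in
theorem walk_eq (σ : X → Equiv.Perm (Fin n)) (p : Fin n) (l : List (X × Bool)) :
    FreeGroup.lift σ (FreeGroup.mk l) p = walk σ p l := by
  induction l with
  | nil => rfl
  | cons x l ih =>
    rw [walk, ← ih, FreeGroup.lift_mk, FreeGroup.lift_mk, List.map_cons, List.prod_cons,
      Equiv.Perm.mul_apply]
    rfl

/-- **A nontrivial word of length `K` is a relation between at most the proportion `K² / (n - K)`
of all tuples of permutations.** -/
theorem card_relation [Fintype X] (u : FreeGroup X) (hu : u ≠ 1) :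
    Nat.card {σ : X → Equiv.Perm (Fin n) // FreeGroup.lift σ u = 1} * (n - u.toWord.length) ≤
      Nat.card (X → Equiv.Perm (Fin n)) * u.toWord.length ^ 2 := by
  classical
  rcases Nat.eq_zero_or_pos n with rfl | hn
  · simp
  have hne : u.toWord ≠ [] := fun h => hu (FreeGroup.toWord_eq_nil_iff.1 h)
  have h1 := card_notSimple (n := n) ⟨0, hn⟩ u.toWord.length u.toWord FreeGroup.isReduced_toWord
    le_rfl
  have h2 : Nat.card {σ : X → Equiv.Perm (Fin n) // FreeGroup.lift σ u = 1} ≤
      (notSimple (X := X) (⟨0, hn⟩ : Fin n) u.toWord).card := by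
    rw [Nat.card_eq_fintype_card, Fintype.card_subtype]
    refine Finset.card_le_card fun σ hσ => ?_
    simp only [Finset.mem_filter, Finset.mem_univ, true_and, notSimple] at hσ ⊢
    intro hs
    have h3 := walk_eq σ ⟨0, hn⟩ u.toWord
    rw [FreeGroup.mk_toWord, hσ] at h3
    have h4 := hs.eq_of_walk_eq List.nil_suffix h3
    exact hne h4.symm
  rw [Nat.card_eq_fintype_card (α := X → Equiv.Perm (Fin n)), pow_two]
  exact (Nat.mul_le_mul_right _ h2).trans h1

/-- the proportion of the tuples of permutations of `Fin n` with a property -/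
def tupleProportion (X : Type) (n : ℕ) (P : (X → Equiv.Perm (Fin n)) → Prop) : ℝ :=
  Nat.card {σ : X → Equiv.Perm (Fin n) // P σ} / Nat.card (X → Equiv.Perm (Fin n))

theorem proportion_nonneg (X : Type) (n : ℕ) (P : (X → Equiv.Perm (Fin n)) → Prop) :
    0 ≤ tupleProportion X n P := by unfold tupleProportion; positivity

omit [DecidableEq X] in
theorem proportion_mono [Finite X] {n : ℕ} {P Q : (X → Equiv.Perm (Fin n)) → Prop}
    (h : ∀ σ, P σ → Q σ) : tupleProportion X n P ≤ tupleProportion X n Q := by
  unfold tupleProportion
  refine div_le_div_of_nonneg_right ?_ (by positivity)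
  exact_mod_cast Nat.card_le_card_of_injective (fun σ : {σ // P σ} => (⟨σ.1, h _ σ.2⟩ : {σ // Q σ}))
    fun σ τ hst => Subtype.ext (congrArg (fun x => x.1) hst)

omit [DecidableEq X] in
theorem proportion_eq_one [Finite X] {n : ℕ} {P : (X → Equiv.Perm (Fin n)) → Prop}
    (h : ∀ σ, P σ) : tupleProportion X n P = 1 := by
  unfold tupleProportion
  rw [Nat.card_congr (Equiv.subtypeUnivEquiv h)]
  exact div_self (by exact_mod_cast Nat.card_pos.ne')

omit [DecidableEq X] in
theorem proportion_exists_le [Finite X] {n : ℕ} {ι : Type} (s : Finset ι)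
    (P : ι → (X → Equiv.Perm (Fin n)) → Prop) :
    tupleProportion X n (fun σ => ∃ i ∈ s, P i σ) ≤ ∑ i ∈ s, tupleProportion X n (P i) := by
  classical
  have := Fintype.ofFinite X
  unfold tupleProportion
  rw [← Finset.sum_div]
  refine div_le_div_of_nonneg_right ?_ (by positivity)
  have h : Nat.card {σ // ∃ i ∈ s, P i σ} ≤ ∑ i ∈ s, Nat.card {σ // P i σ} := by
    simp only [Nat.card_eq_fintype_card, Fintype.card_subtype]
    refine (Finset.card_le_card ?_).trans Finset.card_biUnion_le
    intro σ hσ
    simpa using hσ
  exact_mod_cast h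

theorem proportion_relation_le [Finite X] (u : FreeGroup X) (hu : u ≠ 1) {n : ℕ}
    (hn : u.toWord.length < n) :
    tupleProportion X n (fun σ => FreeGroup.lift σ u = 1) ≤
      (u.toWord.length : ℝ) ^ 2 / (n - u.toWord.length) := by
  classical
  have := Fintype.ofFinite X
  have h := card_relation (n := n) u hu
  have h1 : (0 : ℝ) < (n : ℝ) - u.toWord.length := by
    rw [sub_pos]; exact_mod_cast hn
  have h2 : (0 : ℝ) < Nat.card (X → Equiv.Perm (Fin n)) := by
    exact_mod_cast Nat.card_pos
  unfold tupleProportion
  rw [div_le_div_iff₀ h2 h1]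
  have h3 : ((Nat.card {σ : X → Equiv.Perm (Fin n) // FreeGroup.lift σ u = 1} *
      (n - u.toWord.length) : ℕ) : ℝ) ≤
      ((Nat.card (X → Equiv.Perm (Fin n)) * u.toWord.length ^ 2 : ℕ) : ℝ) := by
    exact_mod_cast h
  rw [Nat.cast_mul, Nat.cast_sub hn.le, Nat.cast_mul, Nat.cast_pow] at h3
  linarith

/-- A nontrivial word is asymptotically never a relation between random permutations. -/
theorem tendsto_relation [Finite X] (u : FreeGroup X) (hu : u ≠ 1) :
    Tendsto (fun n => tupleProportion X n fun σ => FreeGroup.lift σ u = 1) atTop (𝓝 0) := by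
  have h1 : Tendsto (fun n : ℕ => (u.toWord.length : ℝ) ^ 2 / (n - u.toWord.length)) atTop
      (𝓝 0) := by
    refine Tendsto.div_atTop tendsto_const_nhds ?_
    exact tendsto_atTop_add_const_right _ _ tendsto_natCast_atTop_atTop
  refine squeeze_zero' (Eventually.of_forall fun n => proportion_nonneg _ _ _) ?_ h1
  filter_upwards [eventually_gt_atTop u.toWord.length] with n hn
  exact proportion_relation_le u hu hn

/-- A nontrivial word is a relation between at most the proportion `C / n` of the tuples of
permutations of `n` points. -/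
theorem exists_bound [Finite X] (u : FreeGroup X) (hu : u ≠ 1) :
    ∃ C : ℝ, ∀ n : ℕ, 1 ≤ n → tupleProportion X n (fun σ => FreeGroup.lift σ u = 1) ≤ C / n := by
  set K : ℕ := u.toWord.length with hK
  refine ⟨(K : ℝ) ^ 2 * (K + 1) + K, fun n hn => ?_⟩
  have hn0 : (0 : ℝ) < n := by exact_mod_cast hn
  rcases Nat.lt_or_ge K n with h | h
  · refine (proportion_relation_le u hu h).trans ?_
    rw [← hK]
    have h1 : (K : ℝ) + 1 ≤ n := by exact_mod_cast h
    have h2 : (0 : ℝ) < n - K := by linarith
    rw [div_le_div_iff₀ h2 hn0]
    have h3 : (0 : ℝ) ≤ K := Nat.cast_nonneg K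
    have h4 : (n : ℝ) ≤ (K + 1) * (n - K) := by nlinarith
    calc (K : ℝ) ^ 2 * n ≤ (K : ℝ) ^ 2 * ((K + 1) * (n - K)) := by gcongr
      _ ≤ ((K : ℝ) ^ 2 * (K + 1) + K) * (n - K) := by nlinarith [mul_nonneg h3 h2.le]
  · have h1 : tupleProportion X n (fun σ => FreeGroup.lift σ u = 1) ≤ 1 := by
      have := proportion_mono (X := X) (n := n) (P := fun σ => FreeGroup.lift σ u = 1)
        (Q := fun _ => True) fun _ _ => trivial
      rwa [proportion_eq_one (P := fun _ => True) fun _ => trivial] at this
    refine h1.trans ?_
    rw [le_div_iff₀ hn0]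
    have h2 : (n : ℝ) ≤ K := by exact_mod_cast h
    have h3 : (0 : ℝ) ≤ (K : ℝ) ^ 2 * (K + 1) := by positivity
    linarith

end Vale.Agent.P215.R2.H652
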